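import Vale.Agent.P268.T.H155.Turn

/-!
# P268, topological half, block B1G-C: explicit piecewise loops

Five consecutive pieces `[nd j, nd j + len j]` of the unit interval; the loops are functions of the
five ramps `K j`.
-/

set_option linter.unusedSectionVars false

namespace Vale.Agent.P268.T.H155

open Set Filter Topology Complex

/-- The ramp from `0` (at `a`) to `1` (at `a + l`). -/
noncomputable def rp (a l x : ℝ) : ℝ := max 0 (min 1 ((x - a) / l))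

theorem continuous_rp (a l : ℝ) : Continuous (rp a l) := by
  unfold rp
  fun_prop

theorem rp_of_le {a l x : ℝ} (hl : 0 < l) (h : x ≤ a) : rp a l x = 0 := by
  rw [rp, max_eq_left]
  exact (min_le_right _ _).trans (div_nonpos_of_nonpos_of_nonneg (by linarith) hl.le)

theorem rp_of_ge {a l x : ℝ} (hl : 0 < l) (h : a + l ≤ x) : rp a l x = 1 := by
  have h1 : 1 ≤ (x - a) / l := by rw [le_div_iff₀ hl]; linarith
  rw [rp, min_eq_left h1, max_eq_right zero_le_one]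

theorem rp_mid {a l x : ℝ} (hl : 0 < l) (h : a ≤ x) (h' : x ≤ a + l) : rp a l x = (x - a) / l := by
  have h1 : (x - a) / l ≤ 1 := by rw [div_le_one hl]; linarith
  rw [rp, min_eq_right h1, max_eq_right (div_nonneg (by linarith) hl.le)]

theorem rp_mem (a l x : ℝ) : rp a l x ∈ Icc (0 : ℝ) 1 :=
  ⟨le_max_left _ _, max_le zero_le_one (min_le_left _ _)⟩

theorem rp_lip {a l : ℝ} (hl : 0 < l) (x x' : ℝ) : |rp a l x' - rp a l x| ≤ l⁻¹ * |x' - x| := by
  have h1 : |rp a l x' - rp a l x| ≤ |(x' - a) / l - (x - a) / l| := by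
    unfold rp
    refine (abs_max_sub_max_le_max _ _ _ _).trans ?_
    rw [sub_self, abs_zero]
    refine max_le (abs_nonneg _) ?_
    refine (abs_min_sub_min_le_max _ _ _ _).trans ?_
    rw [sub_self, abs_zero]
    exact max_le (abs_nonneg _) le_rfl
  refine h1.trans (le_of_eq ?_)
  rw [← sub_div, sub_sub_sub_cancel_right, abs_div, abs_of_pos hl, inv_mul_eq_div]

/-- Nodes. -/
noncomputable def nd (x₁ : ℝ) : Fin 5 → ℝ
  | 0 => 0
  | 1 => x₁
  | 2 => x₁ + (1 - x₁) / 4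
  | 3 => x₁ + 2 * ((1 - x₁) / 4)
  | 4 => x₁ + 3 * ((1 - x₁) / 4)

/-- Lengths of the pieces. -/
noncomputable def len (x₁ : ℝ) : Fin 5 → ℝ
  | 0 => x₁
  | _ => (1 - x₁) / 4

/-- The five ramps. -/
noncomputable def K (x₁ : ℝ) (x : ℝ) (j : Fin 5) : ℝ := rp (nd x₁ j) (len x₁ j) x

/-- The values of the ramps on the piece `j`. -/
noncomputable def vec (j : Fin 5) (y : ℝ) (i : Fin 5) : ℝ :=
  if i < j then 1 else if i = j then y else 0

variable {x₁ : ℝ}

/-- Case distinction for `Fin 5`. -/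
@[elab_as_elim]
theorem forall_fin5 {P : Fin 5 → Prop} (h0 : P 0) (h1 : P 1) (h2 : P 2) (h3 : P 3) (h4 : P 4)
    (j : Fin 5) : P j := by
  fin_cases j
  exacts [h0, h1, h2, h3, h4]

theorem nd_0 : nd x₁ 0 = 0 := rfl
theorem nd_1 : nd x₁ 1 = x₁ := rfl
theorem nd_2 : nd x₁ 2 = x₁ + (1 - x₁) / 4 := rfl
theorem nd_3 : nd x₁ 3 = x₁ + 2 * ((1 - x₁) / 4) := rfl
theorem nd_4 : nd x₁ 4 = x₁ + 3 * ((1 - x₁) / 4) := rfl
theorem len_0 : len x₁ 0 = x₁ := rfl
theorem len_1 : len x₁ 1 = (1 - x₁) / 4 := rfl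
theorem len_2 : len x₁ 2 = (1 - x₁) / 4 := rfl
theorem len_3 : len x₁ 3 = (1 - x₁) / 4 := rfl
theorem len_4 : len x₁ 4 = (1 - x₁) / 4 := rfl

theorem len_pos (h0 : 0 < x₁) (h1 : x₁ < 1) (j : Fin 5) : 0 < len x₁ j := by
  refine forall_fin5 ?_ ?_ ?_ ?_ ?_ j <;> simp only [len_0, len_1, len_2, len_3, len_4] <;> linarith

theorem nd_nonneg (h0 : 0 < x₁) (h1 : x₁ < 1) (j : Fin 5) : 0 ≤ nd x₁ j := by
  refine forall_fin5 ?_ ?_ ?_ ?_ ?_ j <;> simp only [nd_0, nd_1, nd_2, nd_3, nd_4] <;> linarith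

theorem nd_add_len_le (h1 : x₁ < 1) (j : Fin 5) : nd x₁ j + len x₁ j ≤ 1 := by
  refine forall_fin5 ?_ ?_ ?_ ?_ ?_ j <;>
    simp only [len_0, len_1, len_2, len_3, len_4, nd_0, nd_1, nd_2, nd_3, nd_4] <;> linarith

theorem nd_lt (h1 : x₁ < 1) {i j : Fin 5} (h : i < j) :
    nd x₁ i + len x₁ i ≤ nd x₁ j := by
  revert h
  refine forall_fin5 ?_ ?_ ?_ ?_ ?_ i <;> refine forall_fin5 ?_ ?_ ?_ ?_ ?_ j <;>
    first
    | (intro h; exact absurd h (by decide))
    | (intro _; simp only [len_0, len_1, len_2, len_3, nd_0, nd_1, nd_2, nd_3, nd_4];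
       linarith)

theorem K_piece (h0 : 0 < x₁) (h1 : x₁ < 1) {j : Fin 5} {x : ℝ} (hx : nd x₁ j ≤ x)
    (hx' : x ≤ nd x₁ j + len x₁ j) : K x₁ x = vec j ((x - nd x₁ j) / len x₁ j) := by
  funext i
  rw [K, vec]
  split_ifs with h h'
  · exact rp_of_ge (len_pos h0 h1 i) ((nd_lt h1 h).trans hx)
  · subst h'
    exact rp_mid (len_pos h0 h1 i) hx hx'
  · have hji : j < i := lt_of_le_of_ne (not_lt.mp h) (Ne.symm h')
    exact rp_of_le (len_pos h0 h1 i) (hx'.trans (nd_lt h1 hji))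

theorem exists_piece_right {x : ℝ} (hx : 0 ≤ x) (hx' : x < 1) :
    ∃ j, nd x₁ j ≤ x ∧ x < nd x₁ j + len x₁ j := by
  by_contra hcon
  push Not at hcon
  have a0 := hcon 0
  have a1 := hcon 1
  have a2 := hcon 2
  have a3 := hcon 3
  have a4 := hcon 4
  simp only [len_0, len_1, len_2, len_3, len_4, nd_0, nd_1, nd_2, nd_3, nd_4] at a0 a1 a2 a3 a4
  have b0 := a0 hx
  have b1 := a1 (by linarith)
  have b2 := a2 (by linarith)
  have b3 := a3 (by linarith)
  have b4 := a4 (by linarith)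
  linarith

theorem exists_piece_left {x : ℝ} (hx : 0 < x) (hx' : x ≤ 1) :
    ∃ j, nd x₁ j < x ∧ x ≤ nd x₁ j + len x₁ j := by
  by_contra hcon
  push Not at hcon
  have a0 := hcon 0
  have a1 := hcon 1
  have a2 := hcon 2
  have a3 := hcon 3
  have a4 := hcon 4
  simp only [len_0, len_1, len_2, len_3, len_4, nd_0, nd_1, nd_2, nd_3, nd_4] at a0 a1 a2 a3 a4
  have b0 := a0 hx
  have b1 := a1 (by linarith)
  have b2 := a2 (by linarith)
  have b3 := a3 (by linarith)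
  have b4 := a4 (by linarith)
  linarith

theorem K_zero (h0 : 0 < x₁) (h1 : x₁ < 1) : K x₁ 0 = fun _ => 0 := by
  funext i
  exact rp_of_le (len_pos h0 h1 i) (nd_nonneg h0 h1 i)

theorem K_one (h0 : 0 < x₁) (h1 : x₁ < 1) : K x₁ 1 = fun _ => 1 := by
  funext i
  exact rp_of_ge (len_pos h0 h1 i) (nd_add_len_le h1 i)

theorem continuous_K (x₁ : ℝ) : Continuous (K x₁) :=
  continuous_pi fun _ => continuous_rp _ _

/-- The angle of the polygon. -/
noncomputable def alf (o : ℝ) (A k : Fin 5 → ℝ) : ℝ := o + ∑ i, A i * k i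

/-- The loop `p` as a function of the ramps. -/
noncomputable def ppf (a u B d : ℝ) (k : Fin 5 → ℝ) : ℂ :=
  u * (exp (((2 * Real.pi * a * k 0 + B * k 1 : ℝ) : ℂ) * I) - 2 * (Real.sin B : ℂ) * (k 2 : ℂ) * I +
    (exp (((-B + (B - d) * k 3 + d * k 4 : ℝ) : ℂ) * I) - exp (((-B : ℝ) : ℂ) * I)))

/-- The derivative of `ppf` in the direction of the ramp `j`, without the factor `u`. -/
noncomputable def dpf' (a B d : ℝ) (k : Fin 5 → ℝ) : Fin 5 → ℂ
  | 0 => ((2 * Real.pi * a : ℝ) : ℂ) *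
        (I * exp (((2 * Real.pi * a * k 0 + B * k 1 : ℝ) : ℂ) * I))
  | 1 => (B : ℂ) * (I * exp (((2 * Real.pi * a * k 0 + B * k 1 : ℝ) : ℂ) * I))
  | 2 => -(2 * (Real.sin B : ℂ) * I)
  | 3 => ((B - d : ℝ) : ℂ) * (I * exp (((-B + (B - d) * k 3 + d * k 4 : ℝ) : ℂ) * I))
  | 4 => (d : ℂ) * (I * exp (((-B + (B - d) * k 3 + d * k 4 : ℝ) : ℂ) * I))

/-- The derivative of `ppf` in the direction of the ramp `j`. -/
noncomputable def dpf (a u B d : ℝ) (k : Fin 5 → ℝ) (j : Fin 5) : ℂ := u * dpf' a B d k j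

/-- The loop `σ` as a function of the ramps. -/
noncomputable def sgf (g e o : ℝ) (A k : Fin 5 → ℝ) : ℂ :=
  exp (((g + e * alf o A k : ℝ) : ℂ) * I)

theorem hasDerivAt_vec (j : Fin 5) (y : ℝ) (i : Fin 5) :
    HasDerivAt (fun y => vec j y i) (if i = j then 1 else 0) y := by
  unfold vec
  split_ifs with h h'
  · exact absurd (h' ▸ h) (lt_irrefl _)
  · exact hasDerivAt_const y 1
  · exact hasDerivAt_id y
  · exact hasDerivAt_const y 0

theorem hasDerivAt_alf (o : ℝ) (A : Fin 5 → ℝ) (j : Fin 5) (y : ℝ) :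
    HasDerivAt (fun y => alf o A (vec j y)) (A j) y := by
  have h1 : HasDerivAt (fun y => ∑ i, A i * vec j y i) (∑ i, A i * (if i = j then 1 else 0)) y :=
    HasDerivAt.fun_sum fun i _ => (hasDerivAt_vec j y i).const_mul (A i)
  simp only [mul_ite, mul_one, mul_zero, Finset.sum_ite_eq', Finset.mem_univ, if_true] at h1
  exact h1.const_add o

/-- Derivative of a unit rotation. -/
theorem hasDerivAt_rot {f : ℝ → ℝ} {f' : ℝ} {y : ℝ} (h : HasDerivAt f f' y) :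
    HasDerivAt (fun y => exp (((f y : ℝ) : ℂ) * I)) ((f' : ℂ) * (I * exp (((f y : ℝ) : ℂ) * I)))
      y := by
  have h1 := (h.ofReal_comp.mul_const I).cexp
  convert h1 using 1
  ring

theorem hasDerivAt_sgf (g e o : ℝ) (A : Fin 5 → ℝ) (j : Fin 5) (y : ℝ) :
    HasDerivAt (fun y => sgf g e o A (vec j y))
      (((e * A j : ℝ) : ℂ) * (I * sgf g e o A (vec j y))) y := by
  unfold sgf
  exact hasDerivAt_rot (((hasDerivAt_alf o A j y).const_mul e).const_add g)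

theorem hasDerivAt_ppf (a u B d : ℝ) (j : Fin 5) (y : ℝ) :
    HasDerivAt (fun y => ppf a u B d (vec j y)) (dpf a u B d (vec j y) j) y := by
  have hv := fun i => hasDerivAt_vec j y i
  unfold ppf dpf
  refine HasDerivAt.const_mul _ ?_
  have e1 := hasDerivAt_rot (((hv 0).const_mul (2 * Real.pi * a)).add ((hv 1).const_mul B))
  have e2 := (((hv 2).ofReal_comp).const_mul (2 * (Real.sin B : ℂ))).mul_const I
  have e3 := hasDerivAt_rot ((((hv 3).const_mul (B - d)).const_add (-B)).add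
    ((hv 4).const_mul d))
  have e4 := (e1.sub e2).add (e3.sub_const (exp (((-B : ℝ) : ℂ) * I)))
  have e5 : ∀ z, HasDerivAt (fun y => exp (((2 * Real.pi * a * vec j y 0 + B * vec j y 1 : ℝ) : ℂ) * I)
      - 2 * (Real.sin B : ℂ) * (vec j y 2 : ℂ) * I +
    (exp (((-B + (B - d) * vec j y 3 + d * vec j y 4 : ℝ) : ℂ) * I) - exp (((-B : ℝ) : ℂ) * I)))
      z y → z = dpf' a B d (vec j y) j → HasDerivAt (fun y =>
      exp (((2 * Real.pi * a * vec j y 0 + B * vec j y 1 : ℝ) : ℂ) * I)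
      - 2 * (Real.sin B : ℂ) * (vec j y 2 : ℂ) * I +
    (exp (((-B + (B - d) * vec j y 3 + d * vec j y 4 : ℝ) : ℂ) * I) - exp (((-B : ℝ) : ℂ) * I)))
      (dpf' a B d (vec j y) j) y := fun z h1 h2 => h2 ▸ h1
  refine e5 _ e4 ?_
  refine forall_fin5 ?_ ?_ ?_ ?_ ?_ j <;> simp [dpf']

theorem continuous_sgf (g e : ℝ) : Continuous fun q : ℝ × (Fin 5 → ℝ) × (Fin 5 → ℝ) =>
    sgf g e q.1 q.2.1 q.2.2 := by
  unfold sgf alf
  fun_prop

theorem continuous_ppf (a : ℝ) : Continuous fun q : ℝ × ℝ × ℝ × (Fin 5 → ℝ) =>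
    ppf a q.1 q.2.1 q.2.2.1 q.2.2.2 := by
  unfold ppf
  fun_prop

theorem continuous_dpf (a : ℝ) (j : Fin 5) : Continuous fun q : ℝ × ℝ × ℝ × (Fin 5 → ℝ) =>
    dpf a q.1 q.2.1 q.2.2.1 q.2.2.2 j := by
  unfold dpf
  refine forall_fin5 ?_ ?_ ?_ ?_ ?_ j <;> unfold dpf' <;> fun_prop

theorem continuous_vec (j : Fin 5) : Continuous (vec j) := by
  refine continuous_pi fun i => ?_
  unfold vec
  split_ifs <;> fun_prop

/-- The turning condition on the piece `j`, for the vertices `v₁ ∈ V` of the polygon. -/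
def PieceOK (V : Set ℂ) (a u B d o : ℝ) (A : Fin 5 → ℝ) (j : Fin 5) : Prop :=
  ∀ y ∈ Icc (0 : ℝ) 1, ∀ v₁ ∈ V,
    0 ≤ (exp ((alf o A (vec j y) : ℂ) * I) * v₁ - ppf a u B d (vec j y)).re →
    0 < crs (exp ((alf o A (vec j y) : ℂ) * I) * v₁ - ppf a u B d (vec j y))
      ((A j : ℂ) * (I * (exp ((alf o A (vec j y) : ℂ) * I) * v₁)) - dpf a u B d (vec j y) j)

section Fam

variable {Θ : Type*} [TopologicalSpace Θ] (x₁ g e a : ℝ) (u B d o : Θ → ℝ) (A : Θ → Fin 5 → ℝ)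

/-- The loops `σ` on the unit interval. -/
noncomputable def sg (t : Θ) (x : ℝ) : ℂ := sgf g e (o t) (A t) (K x₁ x)

/-- The loops `p` on the unit interval. -/
noncomputable def pg (t : Θ) (x : ℝ) : ℂ := ppf a (u t) (B t) (d t) (K x₁ x)

variable {x₁ g e a u B d o A}

/-- Turning on a piece. -/
theorem turn_piece (h0 : 0 < x₁) (h1 : x₁ < 1) (hu : Continuous u) (hB : Continuous B)
    (hd : Continuous d) (ho : Continuous o) (hA : Continuous A) {V : Set ℂ} {s : Set Θ} {t₀ : Θ}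
    {j : Fin 5} (hP : PieceOK V a (u t₀) (B t₀) (d t₀) (o t₀) (A t₀) j) {x₀ : ℝ}
    (hx : nd x₁ j ≤ x₀) (hx' : x₀ ≤ nd x₁ j + len x₁ j) {v ξ v₁ : ℂ} (hv₁ : v₁ ∈ V)
    (hv : v = exp ((alf (o t₀) (A t₀) (K x₁ x₀) : ℂ) * I) * v₁)
    (hξ : (e : ℂ) * (sg x₁ g e o A t₀ x₀ * ξ) = v)
    (hre : 0 ≤ (v - pg x₁ a u B d t₀ x₀).re) :
    TurnAt (s ×ˢ univ) (fun (q : Θ × ℂ) x =>
      sgf g e (o q.1) (A q.1) (vec j ((x - nd x₁ j) / len x₁ j)) * q.2 -
        ppf a (u q.1) (B q.1) (d q.1) (vec j ((x - nd x₁ j) / len x₁ j)))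
      (v - pg x₁ a u B d t₀ x₀) (t₀, ξ) x₀ := by
  have hl := len_pos h0 h1 j
  have hK := K_piece h0 h1 hx hx'
  set y₀ : ℝ := (x₀ - nd x₁ j) / len x₁ j with hy₀
  have hy : y₀ ∈ Icc (0 : ℝ) 1 := by
    constructor
    · exact div_nonneg (by linarith) hl.le
    · rw [hy₀, div_le_one hl]; linarith
  have hpos := hP y₀ hy v₁ hv₁
  rw [← hK, ← hv] at hpos
  have hp : ppf a (u t₀) (B t₀) (d t₀) (K x₁ x₀) = pg x₁ a u B d t₀ x₀ := rfl
  rw [hp] at hpos
  have hpos' := hpos hre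
  refine TurnAt.of_deriv (Γ' := fun (q : Θ × ℂ) x => (((len x₁ j)⁻¹ : ℝ) : ℂ) *
    (((e * A q.1 j : ℝ) : ℂ) * (I * sgf g e (o q.1) (A q.1) (vec j ((x - nd x₁ j) / len x₁ j))) *
      q.2 - dpf a (u q.1) (B q.1) (d q.1) (vec j ((x - nd x₁ j) / len x₁ j)) j))
    (fun q _ x => ?_) ?_ ?_
  · have hin : HasDerivAt (fun x => (x - nd x₁ j) / len x₁ j) ((len x₁ j)⁻¹) x := by
      have := ((hasDerivAt_id x).sub_const (nd x₁ j)).div_const (len x₁ j)
      simpa using this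
    have e1 := (hasDerivAt_sgf g e (o q.1) (A q.1) j ((x - nd x₁ j) / len x₁ j)).scomp x hin
    have e2 := (hasDerivAt_ppf a (u q.1) (B q.1) (d q.1) j ((x - nd x₁ j) / len x₁ j)).scomp x hin
    have e3 := (e1.mul_const q.2).sub e2
    refine HasDerivAt.congr_deriv (f := fun x =>
      sgf g e (o q.1) (A q.1) (vec j ((x - nd x₁ j) / len x₁ j)) * q.2 -
        ppf a (u q.1) (B q.1) (d q.1) (vec j ((x - nd x₁ j) / len x₁ j))) e3 ?_
    simp only [Complex.real_smul]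
    ring
  · refine Continuous.continuousWithinAt ?_
    have c0 : Continuous fun p : (Θ × ℂ) × ℝ => vec j ((p.2 - nd x₁ j) / len x₁ j) :=
      (continuous_vec j).comp (by fun_prop)
    have c1 : Continuous fun p : (Θ × ℂ) × ℝ => sgf g e (o p.1.1) (A p.1.1)
        (vec j ((p.2 - nd x₁ j) / len x₁ j)) :=
      (continuous_sgf g e).comp (((ho.comp (continuous_fst.comp continuous_fst))).prodMk
        ((hA.comp (continuous_fst.comp continuous_fst)).prodMk c0))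
    have c2 : Continuous fun p : (Θ × ℂ) × ℝ => dpf a (u p.1.1) (B p.1.1) (d p.1.1)
        (vec j ((p.2 - nd x₁ j) / len x₁ j)) j :=
      (continuous_dpf a j).comp ((hu.comp (continuous_fst.comp continuous_fst)).prodMk
        ((hB.comp (continuous_fst.comp continuous_fst)).prodMk
          ((hd.comp (continuous_fst.comp continuous_fst)).prodMk c0)))
    have c3 : Continuous fun p : (Θ × ℂ) × ℝ => ((e * A p.1.1 j : ℝ) : ℂ) := by
      have : Continuous fun t => A t j := (continuous_apply j).comp hA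
      have h3 : Continuous fun p : (Θ × ℂ) × ℝ => A p.1.1 j :=
        this.comp (continuous_fst.comp continuous_fst)
      fun_prop
    exact continuous_const.mul (((c3.mul (continuous_const.mul c1)).mul
      (continuous_snd.comp continuous_fst)).sub c2)
  · rw [crs_smul]
    refine mul_pos (inv_pos.mpr hl) ?_
    have e1 : ((e * A t₀ j : ℝ) : ℂ) * (I * sgf g e (o t₀) (A t₀) (vec j y₀)) * ξ =
        (A t₀ j : ℂ) * (I * v) := by
      rw [← hξ, sg, hK]
      push_cast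
      ring
    show 0 < crs (v - pg x₁ a u B d t₀ x₀) (((e * A t₀ j : ℝ) : ℂ) *
      (I * sgf g e (o t₀) (A t₀) (vec j y₀)) * ξ - dpf a (u t₀) (B t₀) (d t₀) (vec j y₀) j)
    rw [e1, ← hK]
    exact hpos'

theorem sg_zero_one (h0 : 0 < x₁) (h1 : x₁ < 1) {n : ℤ} {t : Θ}
    (hn : e * ∑ i, A t i = 2 * Real.pi * n) : sg x₁ g e o A t 0 = sg x₁ g e o A t 1 := by
  rw [sg, sg, K_zero h0 h1, K_one h0 h1, sgf, sgf]
  have : ((g + e * alf (o t) (A t) (fun _ => 1) : ℝ) : ℂ) * I =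
      ((g + e * alf (o t) (A t) (fun _ => 0) : ℝ) : ℂ) * I + n * (2 * Real.pi * I) := by
    have h2 : g + e * alf (o t) (A t) (fun _ => 1) =
        g + e * alf (o t) (A t) (fun _ => 0) + 2 * Real.pi * n := by
      rw [← hn]; simp only [alf, mul_one, mul_zero, Finset.sum_const_zero]; ring
    rw [h2]
    push_cast
    ring
  rw [this, Complex.exp_periodic.int_mul n]

theorem ppf_zero (a : ℕ) (u B d : ℝ) : ppf a u B d (fun _ => 0) = u := by
  simp [ppf]

theorem ppf_one (a : ℕ) (u B d : ℝ) : ppf a u B d (fun _ => 1) = u := by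
  have e1 : exp (((2 * Real.pi * a * 1 + B * 1 : ℝ) : ℂ) * I) = exp ((B : ℂ) * I) := by
    have : ((2 * Real.pi * a * 1 + B * 1 : ℝ) : ℂ) * I = (B : ℂ) * I + a * (2 * Real.pi * I) := by
      push_cast; ring
    rw [this, Complex.exp_periodic.nat_mul a]
  rw [ppf, e1]
  have e2 : -B + (B - d) * 1 + d * 1 = 0 := by ring
  rw [e2]
  have e3 : exp ((B : ℂ) * I) = Complex.cos B + Complex.sin B * I := exp_mul_I _
  have e4 : exp (((-B : ℝ) : ℂ) * I) = Complex.cos B - Complex.sin B * I := by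
    push_cast
    rw [exp_mul_I, Complex.cos_neg, Complex.sin_neg]
    ring
  rw [e3, e4]
  push_cast
  simp only [zero_mul, Complex.exp_zero, mul_one]
  ring

theorem pg_zero_one (h0 : 0 < x₁) (h1 : x₁ < 1) {a : ℕ} (t : Θ) :
    pg x₁ a u B d t 0 = pg x₁ a u B d t 1 := by
  rw [pg, pg, K_zero h0 h1, K_one h0 h1, ppf_zero, ppf_one]

/-- **Turning of the piecewise loops.** -/
theorem turn_loops (h0 : 0 < x₁) (h1 : x₁ < 1) {a : ℕ} (hu : Continuous u) (hB : Continuous B)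
    (hd : Continuous d) (ho : Continuous o) (hA : Continuous A) {V : Set ℂ} {s : Set Θ} {ω : ℝ}
    {n : ℤ} (hs : ∀ t ∈ s, ∑ i, A t i = 2 * Real.pi * ω) (hn : e * ω = n)
    (hV : ∀ v ∈ V, exp (((-(2 * Real.pi * ω) : ℝ) : ℂ) * I) * v ∈ V) {t₀ : Θ} (ht₀ : t₀ ∈ s)
    (hP : ∀ j, PieceOK V a (u t₀) (B t₀) (d t₀) (o t₀) (A t₀) j) {x₀ : ℝ} {v ξ v₁ : ℂ}
    (hv₁ : v₁ ∈ V) (hv : v = exp ((alf (o t₀) (A t₀) (K x₁ (Int.fract x₀)) : ℂ) * I) * v₁)
    (hξ : (e : ℂ) * (per (sg x₁ g e o A t₀) x₀ * ξ) = v)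
    (hre : 0 ≤ (v - per (pg x₁ a u B d t₀) x₀).re) :
    TurnAt (s ×ˢ univ) (fun (q : Θ × ℂ) x =>
      per (sg x₁ g e o A q.1) x * q.2 - per (pg x₁ a u B d q.1) x)
      (v - per (pg x₁ a u B d t₀) x₀) (t₀, ξ) x₀ := by
  have hsg : ∀ t ∈ s, sg x₁ g e o A t 0 = sg x₁ g e o A t 1 := fun t ht =>
    sg_zero_one h0 h1 (n := n) (by rw [hs t ht, ← hn]; ring)
  have key : TurnAt (s ×ˢ univ) (fun (q : Θ × ℂ) => per (fun x =>
      sg x₁ g e o A q.1 x * q.2 - pg x₁ a u B d q.1 x))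
      (v - per (pg x₁ a u B d t₀) x₀) (t₀, ξ) x₀ := by
    refine TurnAt.per (Γ := fun (q : Θ × ℂ) x => sg x₁ g e o A q.1 x * q.2 - pg x₁ a u B d q.1 x)
      (fun q hq => ?_) ?_ ?_ ?_
    · show sg x₁ g e o A q.1 0 * q.2 - pg x₁ a u B d q.1 0 =
        sg x₁ g e o A q.1 1 * q.2 - pg x₁ a u B d q.1 1
      rw [hsg q.1 hq.1, pg_zero_one h0 h1]
    · -- to the right
      obtain ⟨j, hj, hj'⟩ := exists_piece_right (x₁ := x₁) (Int.fract_nonneg x₀)
        (Int.fract_lt_one x₀)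
      have h2 := (turn_piece (s := s) h0 h1 hu hB hd ho hA (hP j) hj hj'.le hv₁ hv hξ hre).right
      refine h2.congr hj' fun q _ x hx hx' => ?_
      rw [sg, pg, K_piece h0 h1 (hj.trans hx) hx']
    · intro hne
      obtain ⟨j, hj, hj'⟩ := exists_piece_left (x₁ := x₁)
        (lt_of_le_of_ne (Int.fract_nonneg x₀) (Ne.symm hne)) (Int.fract_lt_one x₀).le
      have h2 := (turn_piece (s := s) h0 h1 hu hB hd ho hA (hP j) hj.le hj' hv₁ hv hξ hre).left
      refine h2.congr hj fun q _ x hx hx' => ?_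
      rw [sg, pg, K_piece h0 h1 hx (hx'.trans hj')]
    · intro hfr
      obtain ⟨j, hj, hj'⟩ := exists_piece_left (x₁ := x₁) one_pos le_rfl
      have e1 : per (pg x₁ a u B d t₀) x₀ = pg x₁ a u B d t₀ 1 := by
        rw [per, hfr, pg_zero_one h0 h1]
      have e2 : per (sg x₁ g e o A t₀) x₀ = sg x₁ g e o A t₀ 1 := by
        rw [per, hfr, hsg t₀ ht₀]
      rw [e1] at hre ⊢
      rw [e2] at hξ
      have e3 : v = exp ((alf (o t₀) (A t₀) (K x₁ 1) : ℂ) * I) *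
          (exp (((-(2 * Real.pi * ω) : ℝ) : ℂ) * I) * v₁) := by
        rw [hv, hfr, ← mul_assoc, ← Complex.exp_add, K_zero h0 h1, K_one h0 h1]
        congr 2
        have h3 : alf (o t₀) (A t₀) (fun _ => 1) =
            alf (o t₀) (A t₀) (fun _ => 0) + 2 * Real.pi * ω := by
          rw [← hs t₀ ht₀]; simp only [alf, mul_one, mul_zero, Finset.sum_const_zero]; ring
        rw [h3]
        push_cast
        ring
      have h2 := (turn_piece (s := s) h0 h1 hu hB hd ho hA (hP j) hj.le hj' (hV v₁ hv₁) e3 hξ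
        hre).left
      refine h2.congr hj fun q _ x hx hx' => ?_
      rw [sg, pg, K_piece h0 h1 hx (hx'.trans hj')]
  exact key

end Fam

end Vale.Agent.P268.T.H155
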