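import Vale.Agent.P268.T.H155.Pieces

/-!
# P268, topological half, block B1G-C: the main family of loops

For `t ∈ [0, 1]` the polygon is reparametrised (`p = 0`), for `t ∈ [1, 2]` the loop `p` grows up to
the radius `ρ` of the polygon, for `t ∈ [2, 3]` the polygon comes to rest during the seam, and for
`t ∈ [3, 4]` the loop `p` grows up to the radius `R`, with the seam fixed.
-/

set_option linter.unusedSectionVars false

namespace Vale.Agent.P268.T.H155

open Set Filter Topology Complex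

/-- Polygons. -/
structure Poly (V : Set ℂ) (ρ ω : ℝ) (a : ℕ) : Prop where
  ρpos : 0 < ρ
  norm : ∀ v ∈ V, ‖v‖ = ρ
  ne : ∀ v ∈ V, v ≠ ρ
  rot : ∀ v ∈ V, exp (((2 * Real.pi * ω : ℝ) : ℂ) * I) * v ∈ V
  rot' : ∀ v ∈ V, exp (((-(2 * Real.pi * ω) : ℝ) : ℂ) * I) * v ∈ V
  apos : 0 < a
  lt : (a : ℝ) < ω
  lt' : ω < a + 1

/-- Clamp to `[0, 1]`. -/
noncomputable def cl (x : ℝ) : ℝ := max 0 (min 1 x)

theorem continuous_cl : Continuous cl := by
  unfold cl
  fun_prop

theorem cl_mem (x : ℝ) : cl x ∈ Icc (0 : ℝ) 1 :=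
  ⟨le_max_left _ _, max_le zero_le_one (min_le_left _ _)⟩

theorem cl_of_le {x : ℝ} (h : x ≤ 0) : cl x = 0 := by
  rw [cl, max_eq_left]
  exact (min_le_right _ _).trans h

theorem cl_of_ge {x : ℝ} (h : 1 ≤ x) : cl x = 1 := by
  rw [cl, min_eq_left h, max_eq_right zero_le_one]

theorem cl_of_mem {x : ℝ} (h0 : 0 ≤ x) (h1 : x ≤ 1) : cl x = x := by
  rw [cl, min_eq_right h1, max_eq_right h0]

section Main

variable (ρ ω R : ℝ) (a : ℕ)

/-- The half angle of the seam direction. -/
noncomputable def psi : ℝ := Real.pi * (ω - a)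

/-- The radius of `p`. -/
noncomputable def fu (t : ℝ) : ℝ := ρ * cl (t - 1) + (R - ρ) * cl (t - 3)

/-- The seam angle for the radius `max u ρ`. -/
noncomputable def fB0 (t : ℝ) : ℝ := Real.arccos (ρ * Real.cos (psi ω a) / max (fu ρ R t) ρ)

/-- The slowing down parameter. -/
noncomputable def fτ (t : ℝ) : ℝ := 1 - cl (t - 2)

/-- The seam angle. -/
noncomputable def fB (t : ℝ) : ℝ := fB0 ρ ω R a t - fτ t * psi ω a / 2

/-- The rest angle. -/
noncomputable def fd (t : ℝ) : ℝ := fτ t * psi ω a / 4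

/-- The relative rotation. -/
noncomputable def fo (t : ℝ) : ℝ := psi ω a - fB0 ρ ω R a t

/-- The rotations of the polygon on the pieces, final form. -/
noncomputable def fA1 (t : ℝ) : Fin 5 → ℝ
  | 0 => 2 * Real.pi * a
  | 1 => fB ρ ω R a t
  | 2 => fτ t * psi ω a
  | 3 => fB ρ ω R a t - fd ω a t
  | 4 => fd ω a t + 2 * fo ρ ω R a t

/-- The rotations of the polygon on the pieces. -/
noncomputable def fA (t : ℝ) (j : Fin 5) : ℝ :=
  (1 - cl t) * (2 * Real.pi * ω * len (a / ω) j) + cl t * fA1 ρ ω R a t j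

end Main

section

variable {V : Set ℂ} {ρ ω R : ℝ} {a : ℕ}

theorem Poly.ωpos (h : Poly V ρ ω a) : 0 < ω := by
  have h1 : (0 : ℝ) ≤ a := Nat.cast_nonneg a
  linarith [h.lt]

theorem Poly.psi_pos (h : Poly V ρ ω a) : 0 < psi ω a :=
  mul_pos Real.pi_pos (sub_pos.mpr h.lt)

theorem Poly.psi_lt (h : Poly V ρ ω a) : psi ω a < Real.pi := by
  have h1 : ω - a < 1 := by linarith [h.lt']
  have := Real.pi_pos
  unfold psi
  nlinarith

theorem Poly.x₁pos (h : Poly V ρ ω a) : 0 < (a : ℝ) / ω :=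
  div_pos (by exact_mod_cast h.apos) h.ωpos

theorem Poly.x₁lt (h : Poly V ρ ω a) : (a : ℝ) / ω < 1 := by
  rw [div_lt_one h.ωpos]; exact h.lt

/-- The vertices seen after the seam. -/
theorem Poly.rot_psi (h : Poly V ρ ω a) {v : ℂ} (hv : v ∈ V) :
    exp (((2 * psi ω a : ℝ) : ℂ) * I) * v ∈ V := by
  have h1 := h.rot v hv
  have e : exp (((2 * Real.pi * ω : ℝ) : ℂ) * I) = exp (((2 * psi ω a : ℝ) : ℂ) * I) := by
    rw [← rot_period a (2 * psi ω a)]
    congr 3
    unfold psi
    ring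
  rwa [e] at h1

variable (R) in
theorem continuous_fu (ρ : ℝ) : Continuous (fu ρ R) := by
  have := continuous_cl
  unfold fu
  fun_prop

theorem continuous_fB0 (hρ : 0 < ρ) : Continuous (fB0 ρ ω R a) := by
  have h1 := continuous_fu R ρ
  have h2 : Continuous fun t => max (fu ρ R t) ρ := h1.max continuous_const
  have h3 : ∀ t, max (fu ρ R t) ρ ≠ 0 := fun t => (hρ.trans_le (le_max_right _ _)).ne'
  exact Real.continuous_arccos.comp (continuous_const.div h2 h3)

theorem continuous_fτ : Continuous fτ := by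
  have := continuous_cl
  unfold fτ
  fun_prop

theorem continuous_fB (hρ : 0 < ρ) : Continuous (fB ρ ω R a) := by
  have h1 := continuous_fB0 (ω := ω) (R := R) (a := a) hρ
  have h2 := continuous_fτ
  unfold fB
  fun_prop

theorem continuous_fd : Continuous (fd ω a) := by
  have h2 := continuous_fτ
  unfold fd
  fun_prop

theorem continuous_fo (hρ : 0 < ρ) : Continuous (fo ρ ω R a) := by
  have h1 := continuous_fB0 (ω := ω) (R := R) (a := a) hρ
  unfold fo
  fun_prop

theorem continuous_fA (hρ : 0 < ρ) : Continuous (fA ρ ω R a) := by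
  have h1 := continuous_fB (ω := ω) (R := R) (a := a) hρ
  have h2 := continuous_fd (ω := ω) (a := a)
  have h3 := continuous_fo (ω := ω) (R := R) (a := a) hρ
  have h4 := continuous_fτ
  have h5 := continuous_cl
  refine continuous_pi fun j => ?_
  have h6 : Continuous fun t => fA1 ρ ω R a t j := by
    refine forall_fin5 ?_ ?_ ?_ ?_ ?_ j <;> unfold fA1 <;> fun_prop
  unfold fA
  fun_prop

theorem sum_len (x₁ : ℝ) : ∑ j, len x₁ j = 1 := by
  rw [Fin.sum_univ_five, len_0, len_1, len_2, len_3, len_4]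
  ring

theorem sum_fA1 (t : ℝ) : ∑ j, fA1 ρ ω R a t j = 2 * Real.pi * ω := by
  rw [Fin.sum_univ_five]
  simp only [fA1, fB, fo, psi]
  ring

theorem sum_fA (t : ℝ) : ∑ j, fA ρ ω R a t j = 2 * Real.pi * ω := by
  unfold fA
  rw [Finset.sum_add_distrib, ← Finset.mul_sum, ← Finset.mul_sum, ← Finset.mul_sum, sum_len,
    sum_fA1]
  ring

theorem fA_zero (h : Poly V ρ ω a) (t : ℝ) : fA ρ ω R a t 0 = 2 * Real.pi * a := by
  have := h.ωpos.ne'
  simp only [fA, fA1, len_0]
  field_simp
  ring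

theorem fA_of_one_le {t : ℝ} (ht : 1 ≤ t) : fA ρ ω R a t = fA1 ρ ω R a t := by
  funext j
  rw [fA, cl_of_ge ht]
  ring

/-- The radius stays below `ρ` up to time `3`. -/
theorem fu_le (hρ : 0 < ρ) {t : ℝ} (ht : t ≤ 3) : fu ρ R t ≤ ρ := by
  have := (cl_mem (t - 1)).2
  rw [fu, cl_of_le (by linarith : t - 3 ≤ 0)]
  nlinarith

theorem fu_nonneg (hρ : 0 < ρ) (hR : ρ ≤ R) (t : ℝ) : 0 ≤ fu ρ R t := by
  have h1 := (cl_mem (t - 1)).1
  have h2 := (cl_mem (t - 3)).1
  have h3 : 0 ≤ R - ρ := by linarith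
  unfold fu
  positivity

theorem fu_zero {t : ℝ} (ht : t ≤ 1) : fu ρ R t = 0 := by
  rw [fu, cl_of_le (by linarith : t - 1 ≤ 0), cl_of_le (by linarith : t - 3 ≤ 0)]
  ring

theorem fu_ge (hR : ρ ≤ R) {t : ℝ} (ht : 2 ≤ t) : ρ ≤ fu ρ R t := by
  have h2 := (cl_mem (t - 3)).1
  have h3 : 0 ≤ R - ρ := by linarith
  rw [fu, cl_of_ge (by linarith : 1 ≤ t - 1)]
  nlinarith [mul_nonneg h3 h2]

theorem fB0_le (h : Poly V ρ ω a) {t : ℝ} (ht : t ≤ 3) : fB0 ρ ω R a t = psi ω a := by
  rw [fB0, max_eq_right (fu_le h.ρpos ht), mul_div_assoc, mul_div_cancel₀ _ h.ρpos.ne',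
    Real.arccos_cos h.psi_pos.le h.psi_lt.le]

/-- The seam line is fixed. -/
theorem cos_fB0 (h : Poly V ρ ω a) (hR : ρ ≤ R) {t : ℝ} (ht : 2 ≤ t) :
    fu ρ R t * Real.cos (fB0 ρ ω R a t) = ρ * Real.cos (psi ω a) := by
  have h1 := fu_ge (R := R) hR ht
  have h2 : 0 < fu ρ R t := h.ρpos.trans_le h1
  have h3 : |ρ * Real.cos (psi ω a) / fu ρ R t| ≤ 1 := by
    rw [abs_div, abs_mul, abs_of_pos h.ρpos, abs_of_pos h2, div_le_one h2]
    have := Real.abs_cos_le_one (psi ω a)
    nlinarith [h.ρpos, abs_nonneg (Real.cos (psi ω a))]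
  rw [fB0, max_eq_left h1, Real.cos_arccos (abs_le.mp h3).1 (abs_le.mp h3).2]
  field_simp

theorem fB0_mem (h : Poly V ρ ω a) {t : ℝ} :
    0 < fB0 ρ ω R a t ∧ fB0 ρ ω R a t < Real.pi := by
  have h1 : ρ ≤ max (fu ρ R t) ρ := le_max_right _ _
  have h2 : 0 < max (fu ρ R t) ρ := h.ρpos.trans_le h1
  have hc : |Real.cos (psi ω a)| < 1 := by
    rw [abs_lt]
    constructor
    · have := Real.cos_lt_cos_of_nonneg_of_le_pi h.psi_pos.le le_rfl h.psi_lt
      rwa [Real.cos_pi] at this
    · have := Real.cos_lt_cos_of_nonneg_of_le_pi le_rfl h.psi_lt.le h.psi_pos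
      rwa [Real.cos_zero] at this
  have h3 : |ρ * Real.cos (psi ω a) / max (fu ρ R t) ρ| < 1 := by
    rw [abs_div, abs_mul, abs_of_pos h.ρpos, abs_of_pos h2, div_lt_one h2]
    have := abs_nonneg (Real.cos (psi ω a))
    nlinarith [h.ρpos]
  rw [abs_lt] at h3
  constructor
  · exact Real.arccos_pos.mpr h3.2
  · rw [fB0]
    refine lt_of_le_of_ne (Real.arccos_le_pi _) fun he => ?_
    rw [Real.arccos_eq_pi] at he
    linarith [h3.1]

theorem exp_zero_mul (v : ℂ) : exp (((0 : ℝ) : ℂ) * I) * v = v := by simp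

/-- Vertices are not at the position `u ≤ ρ`. -/
theorem Poly.ne_of_le (h : Poly V ρ ω a) {u : ℝ} (hu0 : 0 ≤ u) (hu : u ≤ ρ) {v : ℂ} (hv : v ∈ V) :
    v ≠ u := by
  rcases hu.lt_or_eq with hu | rfl
  · rintro rfl
    have := h.norm _ hv
    rw [Complex.norm_real, Real.norm_eq_abs, abs_of_nonneg hu0] at this
    linarith
  · exact h.ne v hv

/-- Rotated vertices are not at a position `u > ρ`. -/
theorem Poly.ne_of_gt (h : Poly V ρ ω a) {u : ℝ} (hu : ρ < u) {v : ℂ} (hv : v ∈ V) (x : ℝ) :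
    exp ((x : ℂ) * I) * v ≠ u := by
  intro he
  have h1 := congrArg (fun z : ℂ => ‖z‖) he
  rw [norm_rot, h.norm v hv, Complex.norm_real, Real.norm_eq_abs,
    abs_of_pos (h.ρpos.trans hu)] at h1
  linarith

theorem sq_norm_eq' (z : ℂ) : ‖z‖ ^ 2 = z.re ^ 2 + z.im ^ 2 := by
  rw [Complex.sq_norm, Complex.normSq_apply]; ring

/-- **All pieces turn.** -/
theorem pieceOK_main (h : Poly V ρ ω a) (hR : ρ ≤ R) {t : ℝ} (j : Fin 5) :
    PieceOK V a (fu ρ R t) (fB ρ ω R a t) (fd ω a t) (fo ρ ω R a t) (fA ρ ω R a t) j := by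
  have hV0 : ∀ v ∈ V, v ≠ 0 := by
    rintro v hv rfl
    have := h.norm _ hv
    rw [norm_zero] at this
    exact h.ρpos.ne this
  have hψ := h.psi_pos
  have hψπ := h.psi_lt
  have hπ := Real.pi_pos
  have ha : (0 : ℝ) < a := by exact_mod_cast h.apos
  rcases le_total t 1 with ht | ht
  · -- the polygon only
    rw [fu_zero ht]
    refine pieceOK_zero ?_ hV0
    have hc := cl_mem t
    have h1 : fB0 ρ ω R a t = psi ω a := fB0_le h (by linarith)
    have h2 : fτ t = 1 := by rw [fτ, cl_of_le (by linarith : t - 2 ≤ 0)]; ring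
    have hA1 : 0 < fA1 ρ ω R a t j := by
      refine forall_fin5 ?_ ?_ ?_ ?_ ?_ j <;> simp only [fA1, fB, fd, fo, h1, h2]
      · positivity
      · linarith
      · linarith
      · linarith
      · linarith
    have hl : 0 < 2 * Real.pi * ω * len (a / ω) j := by
      have := h.ωpos
      have := len_pos h.x₁pos h.x₁lt j
      positivity
    rw [fA]
    rcases hc.1.lt_or_eq with h3 | h3
    · have h4 : 0 ≤ 1 - cl t := by linarith [hc.2]
      have := mul_pos h3 hA1
      have := mul_nonneg h4 hl.le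
      linarith
    · rw [← h3]
      linarith
  · have hA := fA_of_one_le (ρ := ρ) (ω := ω) (R := R) (a := a) ht
    rw [hA]
    have hA0 : fA1 ρ ω R a t 0 = 2 * Real.pi * a := rfl
    have hA1 : fA1 ρ ω R a t 1 = fB ρ ω R a t := rfl
    have hA2 : fA1 ρ ω R a t 2 = fτ t * psi ω a := rfl
    have hA3 : fA1 ρ ω R a t 3 = fB ρ ω R a t - fd ω a t := rfl
    have hA4 : fA1 ρ ω R a t 4 = fd ω a t + 2 * fo ρ ω R a t := rfl
    have hz2 : fo ρ ω R a t + 2 * fB ρ ω R a t + fA1 ρ ω R a t 2 =
        2 * psi ω a - fo ρ ω R a t := by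
      rw [hA2]; unfold fB fo; ring
    have hu0 := fu_nonneg h.ρpos hR t
    rcases lt_or_ge t 3 with ht3 | ht3
    · -- case I
      have h1 : fB0 ρ ω R a t = psi ω a := fB0_le h ht3.le
      have ho : fo ρ ω R a t = 0 := by rw [fo, h1]; ring
      have hτ1 : fτ t ≤ 1 := by have := (cl_mem (t - 2)).1; unfold fτ; linarith
      have hτ0 : 0 < fτ t := by
        rw [fτ]
        rcases le_total t 2 with h2 | h2
        · rw [cl_of_le (by linarith)]; norm_num
        · rw [cl_of_mem (by linarith) (by linarith)]; linarith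
      have hB : fB ρ ω R a t = psi ω a - fτ t * psi ω a / 2 := by rw [fB, h1]
      have hτψ : fτ t * psi ω a ≤ psi ω a := by nlinarith
      have hτψ0 : 0 < fτ t * psi ω a := mul_pos hτ0 hψ
      have hB0 : 0 < fB ρ ω R a t := by rw [hB]; linarith
      have hBπ : fB ρ ω R a t < Real.pi := by rw [hB]; linarith
      have hBd : fd ω a t < fB ρ ω R a t := by rw [hB, fd]; linarith
      have hd : 0 < fd ω a t := by rw [fd]; linarith
      have huρ := fu_le (R := R) h.ρpos ht3.le
      have hV1 : ∀ v ∈ V, exp ((fo ρ ω R a t : ℂ) * I) * v ≠ fu ρ R t := by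
        intro v hv
        rw [ho, exp_zero_mul]
        exact h.ne_of_le hu0 huρ hv
      have hV2 : ∀ v ∈ V, exp (((fo ρ ω R a t + 2 * fB ρ ω R a t + fA1 ρ ω R a t 2 : ℝ) : ℂ) * I)
          * v ≠ fu ρ R t := by
        intro v hv
        rw [hz2, ho, sub_zero]
        exact h.ne_of_le hu0 huρ (h.rot_psi hv)
      refine forall_fin5 ?_ ?_ ?_ ?_ ?_ j
      · exact pieceOK_0 h.apos hA0 hV1
      · exact pieceOK_1 hB0 hA0 hA1 hV1
      · exact pieceOK_2 hu0 huρ hB0 hBπ (by rw [hA2]; exact hτψ0) hA0 hA1 h.norm hV1 hV2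
      · exact pieceOK_3 hBd hA0 hA1 hA3 hV2
      · exact pieceOK_4 hd hA0 hA1 hA3 (by rw [hA4, ho]; ring) hV2
    · -- case II
      have hτ : fτ t = 0 := by rw [fτ, cl_of_ge (by linarith)]; ring
      have hd : fd ω a t = 0 := by rw [fd, hτ]; ring
      have hB : fB ρ ω R a t = fB0 ρ ω R a t := by rw [fB, hτ]; ring
      have hBm := fB0_mem (R := R) h (t := t)
      have huρ := fu_ge (R := R) hR (by linarith : 2 ≤ t)
      have hcos := cos_fB0 (R := R) h hR (by linarith : 2 ≤ t)
      have hsum : fo ρ ω R a t + fB ρ ω R a t = psi ω a := by rw [hB, fo]; ring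
      -- at the radius `ρ` there is no relative rotation
      have hρo : fu ρ R t = ρ → fo ρ ω R a t = 0 := by
        intro he
        rw [he] at hcos
        have h2 : Real.cos (fB0 ρ ω R a t) = Real.cos (psi ω a) :=
          mul_left_cancel₀ h.ρpos.ne' hcos
        have h3 := Real.injOn_cos ⟨hBm.1.le, hBm.2.le⟩ ⟨hψ.le, hψπ.le⟩ h2
        rw [fo, h3]; ring
      have hV1 : ∀ v ∈ V, exp ((fo ρ ω R a t : ℂ) * I) * v ≠ fu ρ R t := by
        intro v hv
        rcases huρ.lt_or_eq with h1 | h1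
        · exact h.ne_of_gt h1 hv _
        · rw [hρo h1.symm, exp_zero_mul]
          exact h.ne_of_le hu0 h1.symm.le hv
      have hV2 : ∀ v ∈ V, exp (((fo ρ ω R a t + 2 * fB ρ ω R a t + fA1 ρ ω R a t 2 : ℝ) : ℂ) * I)
          * v ≠ fu ρ R t := by
        intro v hv
        rcases huρ.lt_or_eq with h1 | h1
        · exact h.ne_of_gt h1 hv _
        · rw [hz2, hρo h1.symm, sub_zero]
          exact h.ne_of_le hu0 h1.symm.le (h.rot_psi hv)
      have hupos : 0 < fu ρ R t := h.ρpos.trans_le huρ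
      refine forall_fin5 ?_ ?_ ?_ ?_ ?_ j
      · exact pieceOK_0 h.apos hA0 hV1
      · exact pieceOK_1 (by rw [hB]; exact hBm.1) hA0 hA1 hV1
      · refine pieceOK_2' hupos (by rw [hB]; exact hBm.1) (by rw [hB]; exact hBm.2)
          (by rw [hA2, hτ]; ring) hA0 hA1 ?_
        intro v hv hre
        rw [hsum, hB, hcos] at hre
        -- then `e^{iψ} v = ρ e^{± i ψ}`
        set z : ℂ := exp ((psi ω a : ℂ) * I) * v with hz
        have hzn : z.re ^ 2 + z.im ^ 2 = ρ ^ 2 := by
          rw [← sq_norm_eq', hz, norm_rot, h.norm v hv]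
        have him : z.im ^ 2 = (ρ * Real.sin (psi ω a)) ^ 2 := by
          have := Real.sin_sq_add_cos_sq (psi ω a)
          rw [hre] at hzn
          nlinarith
        rcases sq_eq_sq_iff_eq_or_eq_neg.mp him with h1 | h1
        · -- `v = ρ`
          refine h.ne v hv ?_
          have e1 : z = exp ((psi ω a : ℂ) * I) * ρ := by
            rw [exp_eq_cs]
            apply Complex.ext
            · rw [hre]; simp only [Complex.add_re, Complex.mul_re, Complex.ofReal_re,
                Complex.ofReal_im, Complex.I_re, Complex.I_im, Complex.add_im, Complex.mul_im]; ring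
            · rw [h1]; simp only [Complex.add_re, Complex.mul_re, Complex.ofReal_re,
                Complex.ofReal_im, Complex.I_re, Complex.I_im, Complex.add_im, Complex.mul_im]; ring
          rw [hz] at e1
          exact mul_left_cancel₀ (Complex.exp_ne_zero _) e1
        · -- `e^{2iψ} v = ρ`
          refine h.ne _ (h.rot_psi hv) ?_
          have e0 : 2 * psi ω a = psi ω a + psi ω a := by ring
          rw [e0, rot_add, ← hz]
          have e1 : z = exp (((-psi ω a : ℝ) : ℂ) * I) * ρ := by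
            rw [exp_eq_cs, Real.cos_neg, Real.sin_neg]
            apply Complex.ext
            · rw [hre]; simp only [Complex.add_re, Complex.mul_re, Complex.ofReal_re,
                Complex.ofReal_im, Complex.I_re, Complex.I_im, Complex.add_im, Complex.mul_im]; ring
            · rw [h1]; simp only [Complex.add_re, Complex.mul_re, Complex.ofReal_re,
                Complex.ofReal_im, Complex.I_re, Complex.I_im, Complex.add_im, Complex.mul_im]; ring
          rw [e1, ← rot_add]
          simp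
      · exact pieceOK_3 (by rw [hd, hB]; exact hBm.1) hA0 hA1 hA3 hV2
      · rw [hd]
        refine pieceOK_4' fun y _ v hv => ?_
        have hn : ‖exp ((alf (fo ρ ω R a t) (fA1 ρ ω R a t) (vec 4 y) : ℂ) * I) * v‖ = ρ := by
          rw [norm_rot, h.norm v hv]
        rcases huρ.lt_or_eq with h1 | h1
        · exact lt_of_le_of_lt ((Complex.re_le_norm _).trans hn.le) h1
        · -- radius `ρ`
          have ho := hρo h1.symm
          have e1 : alf (fo ρ ω R a t) (fA1 ρ ω R a t) (vec 4 y) =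
              2 * Real.pi * a + 2 * psi ω a := by
            rw [alf_vec_4, hA0, hA1, hA3, hA4, hA2, hd, ho, hτ]
            have : fB ρ ω R a t = psi ω a := by rw [ho] at hsum; linarith
            rw [this]; ring
          rw [e1, rot_period, ← h1]
          have h3 := h.norm _ (h.rot_psi hv)
          set z : ℂ := exp (((2 * psi ω a : ℝ) : ℂ) * I) * v with hz
          refine lt_of_le_of_ne ((Complex.re_le_norm _).trans h3.le) fun hre => ?_
          refine h.ne _ (h.rot_psi hv) ?_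
          rw [← hz]
          have h4 : z.re ^ 2 + z.im ^ 2 = ρ ^ 2 := by rw [← sq_norm_eq', h3]
          rw [hre] at h4
          have h5 : z.im = 0 := by
            have : z.im ^ 2 = 0 := by linarith
            exact pow_eq_zero_iff two_ne_zero |>.mp this
          apply Complex.ext
          · rw [hre, Complex.ofReal_re]
          · rw [h5, Complex.ofReal_im]

end

end Vale.Agent.P268.T.H155
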