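import Vale.Agent.P268.T.H155.Loops

/-!
# P268, topological half, block B1G-C: the turning condition on the five pieces
-/

set_option linter.unusedSectionVars false

namespace Vale.Agent.P268.T.H155

open Set Filter Topology Complex

theorem crs_rot (w : ℂ) (r : ℝ) : crs w ((r : ℂ) * (I * w)) = r * ‖w‖ ^ 2 := by
  rw [crs_smul, crs_I_mul, Complex.sq_norm, Complex.normSq_apply]

theorem crs_rot_pos {w : ℂ} (hw : w ≠ 0) {r : ℝ} (hr : 0 < r) : 0 < crs w ((r : ℂ) * (I * w)) := by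
  rw [crs_rot]
  have := norm_pos_iff.mpr hw
  positivity

theorem norm_rot (x : ℝ) (z : ℂ) : ‖exp ((x : ℂ) * I) * z‖ = ‖z‖ := by
  rw [norm_mul, Complex.norm_exp_ofReal_mul_I, one_mul]

theorem rot_add (x y : ℝ) (z : ℂ) :
    exp (((x + y : ℝ) : ℂ) * I) * z = exp ((x : ℂ) * I) * (exp ((y : ℂ) * I) * z) := by
  rw [← mul_assoc, ← Complex.exp_add]
  congr 2
  push_cast
  ring

theorem rot_period (a : ℕ) (x : ℝ) :
    exp (((2 * Real.pi * a + x : ℝ) : ℂ) * I) = exp ((x : ℂ) * I) := by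
  have : ((2 * Real.pi * a + x : ℝ) : ℂ) * I = (x : ℂ) * I + a * (2 * Real.pi * I) := by
    push_cast; ring
  rw [this, Complex.exp_periodic.nat_mul a]

section alf

variable (o : ℝ) (A : Fin 5 → ℝ) (y : ℝ)

theorem alf_vec_0 : alf o A (vec 0 y) = o + A 0 * y := by
  simp [alf, vec]

theorem alf_vec_1 : alf o A (vec 1 y) = o + A 0 + A 1 * y := by
  simp [alf, Fin.sum_univ_five, vec]; ring

theorem alf_vec_2 : alf o A (vec 2 y) = o + A 0 + A 1 + A 2 * y := by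
  simp [alf, Fin.sum_univ_five, vec]; ring

theorem alf_vec_3 : alf o A (vec 3 y) = o + A 0 + A 1 + A 2 + A 3 * y := by
  simp [alf, Fin.sum_univ_five, vec]; ring

theorem alf_vec_4 : alf o A (vec 4 y) = o + A 0 + A 1 + A 2 + A 3 + A 4 * y := by
  simp [alf, Fin.sum_univ_five, vec]; ring

end alf

section ppf

variable (a : ℕ) (u B d y : ℝ)

theorem exp_two_pi (x : ℝ) :
    exp (((2 * Real.pi * a * 1 + x : ℝ) : ℂ) * I) = exp ((x : ℂ) * I) := by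
  rw [mul_one, rot_period]

theorem ppf_vec_0 : ppf a u B d (vec 0 y) = u * exp (((2 * Real.pi * a * y : ℝ) : ℂ) * I) := by
  simp [ppf, vec]

theorem ppf_vec_1 : ppf a u B d (vec 1 y) = u * exp (((B * y : ℝ) : ℂ) * I) := by
  have h := exp_two_pi a (B * y)
  have e : ppf a u B d (vec 1 y) = u * (exp (((2 * Real.pi * a * 1 + B * y : ℝ) : ℂ) * I) -
      2 * (Real.sin B : ℂ) * ((0 : ℝ) : ℂ) * I + (exp (((-B + (B - d) * 0 + d * 0 : ℝ) : ℂ) * I) -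
        exp (((-B : ℝ) : ℂ) * I))) := rfl
  rw [e, h]
  simp

theorem exp_eq_cs (x : ℝ) : exp ((x : ℂ) * I) = (Real.cos x : ℂ) + (Real.sin x : ℂ) * I := by
  rw [exp_mul_I]
  push_cast
  ring

theorem ppf_vec_2 : ppf a u B d (vec 2 y) =
    u * ((Real.cos B : ℂ) + ((Real.sin B * (1 - 2 * y) : ℝ) : ℂ) * I) := by
  have h := exp_two_pi a (B * 1)
  have e : ppf a u B d (vec 2 y) = u * (exp (((2 * Real.pi * a * 1 + B * 1 : ℝ) : ℂ) * I) -
      2 * (Real.sin B : ℂ) * (y : ℂ) * I + (exp (((-B + (B - d) * 0 + d * 0 : ℝ) : ℂ) * I) -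
        exp (((-B : ℝ) : ℂ) * I))) := rfl
  have e2 : -B + (B - d) * 0 + d * 0 = -B := by ring
  rw [e, h, mul_one, e2, sub_self, exp_eq_cs]
  push_cast
  ring

theorem ppf_vec_3 : ppf a u B d (vec 3 y) = u * exp (((-B + (B - d) * y : ℝ) : ℂ) * I) := by
  have h := exp_two_pi a (B * 1)
  have e : ppf a u B d (vec 3 y) = u * (exp (((2 * Real.pi * a * 1 + B * 1 : ℝ) : ℂ) * I) -
      2 * (Real.sin B : ℂ) * ((1 : ℝ) : ℂ) * I + (exp (((-B + (B - d) * y + d * 0 : ℝ) : ℂ) * I) -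
        exp (((-B : ℝ) : ℂ) * I))) := rfl
  have e2 : -B + (B - d) * y + d * 0 = -B + (B - d) * y := by ring
  rw [e, h, mul_one, e2, exp_eq_cs B, exp_eq_cs (-B), Real.cos_neg, Real.sin_neg]
  push_cast
  ring

theorem ppf_vec_4 : ppf a u B d (vec 4 y) = u * exp (((-d + d * y : ℝ) : ℂ) * I) := by
  have h := exp_two_pi a (B * 1)
  have e : ppf a u B d (vec 4 y) = u * (exp (((2 * Real.pi * a * 1 + B * 1 : ℝ) : ℂ) * I) -
      2 * (Real.sin B : ℂ) * ((1 : ℝ) : ℂ) * I + (exp (((-B + (B - d) * 1 + d * y : ℝ) : ℂ) * I) -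
        exp (((-B : ℝ) : ℂ) * I))) := rfl
  have e2 : -B + (B - d) * 1 + d * y = -d + d * y := by ring
  rw [e, h, mul_one, e2, exp_eq_cs B, exp_eq_cs (-B), Real.cos_neg, Real.sin_neg]
  push_cast
  ring

theorem dpf_vec_0 : dpf a u B d (vec 0 y) 0 =
    ((2 * Real.pi * a : ℝ) : ℂ) * (I * (u * exp (((2 * Real.pi * a * y : ℝ) : ℂ) * I))) := by
  simp [dpf, dpf', vec]
  ring

theorem dpf_vec_1 : dpf a u B d (vec 1 y) 1 =
    (B : ℂ) * (I * (u * exp (((B * y : ℝ) : ℂ) * I))) := by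
  have h := exp_two_pi a (B * y)
  have e : dpf a u B d (vec 1 y) 1 = u * ((B : ℂ) *
      (I * exp (((2 * Real.pi * a * 1 + B * y : ℝ) : ℂ) * I))) := rfl
  rw [e, h]
  ring

theorem dpf_vec_2 : dpf a u B d (vec 2 y) 2 = -((2 * u * Real.sin B : ℝ) : ℂ) * I := by
  have e : dpf a u B d (vec 2 y) 2 = u * -(2 * (Real.sin B : ℂ) * I) := rfl
  rw [e]
  push_cast
  ring

theorem dpf_vec_3 : dpf a u B d (vec 3 y) 3 =
    ((B - d : ℝ) : ℂ) * (I * (u * exp (((-B + (B - d) * y : ℝ) : ℂ) * I))) := by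
  have e : dpf a u B d (vec 3 y) 3 = u * (((B - d : ℝ) : ℂ) *
      (I * exp (((-B + (B - d) * y + d * 0 : ℝ) : ℂ) * I))) := rfl
  have e2 : -B + (B - d) * y + d * 0 = -B + (B - d) * y := by ring
  rw [e, e2]
  ring

theorem dpf_vec_4 : dpf a u B d (vec 4 y) 4 =
    (d : ℂ) * (I * (u * exp (((-d + d * y : ℝ) : ℂ) * I))) := by
  have e : dpf a u B d (vec 4 y) 4 = u * ((d : ℂ) *
      (I * exp (((-B + (B - d) * 1 + d * y : ℝ) : ℂ) * I))) := rfl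
  have e2 : -B + (B - d) * 1 + d * y = -d + d * y := by ring
  rw [e, e2]
  ring

end ppf

section

variable {V : Set ℂ} {a : ℕ} {u B d o : ℝ} {A : Fin 5 → ℝ}

/-- A rigid rotation: `v = e^{iβ} z`, `p = u e^{iβ}`. -/
theorem rigid_pos {β r : ℝ} (hr : 0 < r) {z : ℂ} (hz : z ≠ u) :
    0 < crs (exp ((β : ℂ) * I) * z - u * exp ((β : ℂ) * I))
      ((r : ℂ) * (I * (exp ((β : ℂ) * I) * z)) - (r : ℂ) * (I * (u * exp ((β : ℂ) * I)))) := by
  have e1 : (r : ℂ) * (I * (exp ((β : ℂ) * I) * z)) - (r : ℂ) * (I * (u * exp ((β : ℂ) * I))) =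
      (r : ℂ) * (I * (exp ((β : ℂ) * I) * z - u * exp ((β : ℂ) * I))) := by ring
  rw [e1]
  refine crs_rot_pos ?_ hr
  have e2 : exp ((β : ℂ) * I) * z - u * exp ((β : ℂ) * I) = exp ((β : ℂ) * I) * (z - u) := by
    ring
  rw [e2]
  exact mul_ne_zero (Complex.exp_ne_zero _) (sub_ne_zero.mpr hz)

theorem pieceOK_0 (ha : 0 < a) (hA0 : A 0 = 2 * Real.pi * a)
    (hz : ∀ v ∈ V, exp ((o : ℂ) * I) * v ≠ u) : PieceOK V a u B d o A 0 := by
  intro y _ v₁ hv₁ _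
  rw [alf_vec_0, ppf_vec_0, dpf_vec_0, hA0, add_comm, rot_add]
  have : 0 < 2 * Real.pi * a := by
    have := Real.pi_pos
    positivity
  exact rigid_pos this (hz v₁ hv₁)

theorem pieceOK_1 (hB : 0 < B) (hA0 : A 0 = 2 * Real.pi * a) (hA1 : A 1 = B)
    (hz : ∀ v ∈ V, exp ((o : ℂ) * I) * v ≠ u) : PieceOK V a u B d o A 1 := by
  intro y _ v₁ hv₁ _
  have e : ((alf o A (vec 1 y) : ℝ) : ℂ) = ((2 * Real.pi * a + (B * y + o) : ℝ) : ℂ) := by
    rw [alf_vec_1, hA0, hA1]; push_cast; ring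
  rw [e, rot_period, rot_add, ppf_vec_1, dpf_vec_1, hA1]
  exact rigid_pos hB (hz v₁ hv₁)

theorem pieceOK_3 (hBd : d < B) (hA0 : A 0 = 2 * Real.pi * a) (hA1 : A 1 = B) (hA3 : A 3 = B - d)
    (hz : ∀ v ∈ V, exp (((o + 2 * B + A 2 : ℝ) : ℂ) * I) * v ≠ u) : PieceOK V a u B d o A 3 := by
  intro y _ v₁ hv₁ _
  have e : ((alf o A (vec 3 y) : ℝ) : ℂ) =
      ((2 * Real.pi * a + ((-B + (B - d) * y) + (o + 2 * B + A 2)) : ℝ) : ℂ) := by
    rw [alf_vec_3, hA0, hA1, hA3]; push_cast; ring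
  rw [e, rot_period, rot_add, ppf_vec_3, dpf_vec_3, hA3]
  exact rigid_pos (sub_pos.mpr hBd) (hz v₁ hv₁)

theorem pieceOK_4 (hd : 0 < d) (hA0 : A 0 = 2 * Real.pi * a) (hA1 : A 1 = B) (hA3 : A 3 = B - d)
    (hA4 : A 4 = d)
    (hz : ∀ v ∈ V, exp (((o + 2 * B + A 2 : ℝ) : ℂ) * I) * v ≠ u) : PieceOK V a u B d o A 4 := by
  intro y _ v₁ hv₁ _
  have e : ((alf o A (vec 4 y) : ℝ) : ℂ) =
      ((2 * Real.pi * a + ((-d + d * y) + (o + 2 * B + A 2)) : ℝ) : ℂ) := by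
    rw [alf_vec_4, hA0, hA1, hA3, hA4]; push_cast; ring
  rw [e, rot_period, rot_add, ppf_vec_4, dpf_vec_4, hA4]
  exact rigid_pos hd (hz v₁ hv₁)

/-- The rest at `p = u`: free. -/
theorem pieceOK_4' (hz : ∀ y ∈ Icc (0 : ℝ) 1, ∀ v ∈ V,
    (exp ((alf o A (vec 4 y) : ℂ) * I) * v).re < u) : PieceOK V a u B 0 o A 4 := by
  intro y hy v₁ hv₁ hre
  exfalso
  have h1 := hz y hy v₁ hv₁
  rw [ppf_vec_4] at hre
  have e2 : exp (((-0 + 0 * y : ℝ) : ℂ) * I) = 1 := by simp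
  rw [e2, mul_one, Complex.sub_re, Complex.ofReal_re] at hre
  linarith

/-- The case `u = 0`: only the polygon turns. -/
theorem pieceOK_zero {j : Fin 5} (hAj : 0 < A j) (hV : ∀ v ∈ V, v ≠ 0) :
    PieceOK V a 0 B d o A j := by
  intro y _ v₁ hv₁ _
  have e1 : ppf a 0 B d (vec j y) = 0 := by simp [ppf]
  have e2 : dpf a 0 B d (vec j y) j = 0 := by simp [dpf]
  rw [e1, e2, sub_zero, sub_zero]
  exact crs_rot_pos (mul_ne_zero (Complex.exp_ne_zero _) (hV v₁ hv₁)) hAj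

/-- The real part of a product with a conjugate. -/
theorem crs_seam (v p : ℂ) (r s : ℝ) :
    crs (v - p) ((r : ℂ) * (I * v) - -(s : ℂ) * I) =
      r * (‖v‖ ^ 2 - (v.re * p.re + v.im * p.im)) + s * (v - p).re := by
  rw [crs_sub, crs_smul, crs_I_mul, neg_mul, crs_neg, crs_smul, crs_I, Complex.sq_norm,
    Complex.normSq_apply]
  simp only [Complex.sub_re, Complex.sub_im]
  ring

theorem inner_le {v p : ℂ} {ρ : ℝ} (hv : ‖v‖ = ρ) (hp : ‖p‖ ≤ ρ) :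
    v.re * p.re + v.im * p.im ≤ ‖v‖ ^ 2 ∧ (v.re * p.re + v.im * p.im = ‖v‖ ^ 2 → v = p) := by
  have h1 : ‖v - p‖ ^ 2 = ‖v‖ ^ 2 - 2 * (v.re * p.re + v.im * p.im) + ‖p‖ ^ 2 := by
    rw [Complex.sq_norm, Complex.sq_norm, Complex.sq_norm, Complex.normSq_apply,
      Complex.normSq_apply, Complex.normSq_apply]
    simp only [Complex.sub_re, Complex.sub_im]
    ring
  have h2 : ‖p‖ ^ 2 ≤ ‖v‖ ^ 2 := by
    rw [hv]; exact pow_le_pow_left₀ (norm_nonneg _) hp 2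
  have h3 : 0 ≤ ‖v - p‖ ^ 2 := sq_nonneg _
  refine ⟨by linarith, fun h => ?_⟩
  have h4 : ‖v - p‖ ^ 2 ≤ 0 := by linarith
  have h5 : ‖v - p‖ = 0 := by
    have := sq_nonneg ‖v - p‖
    exact pow_eq_zero_iff two_ne_zero |>.mp (le_antisymm h4 this)
  exact sub_eq_zero.mp (norm_eq_zero.mp h5)

/-- The seam for `u ≤ ρ`, the polygon turns slowly. -/
theorem pieceOK_2 {ρ : ℝ} (hu0 : 0 ≤ u) (huρ : u ≤ ρ) (hB0 : 0 < B) (hBπ : B < Real.pi)
    (hA2 : 0 < A 2) (hA0 : A 0 = 2 * Real.pi * a) (hA1 : A 1 = B)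
    (hVρ : ∀ v ∈ V, ‖v‖ = ρ) (hV1 : ∀ v ∈ V, exp ((o : ℂ) * I) * v ≠ u)
    (hV2 : ∀ v ∈ V, exp (((o + 2 * B + A 2 : ℝ) : ℂ) * I) * v ≠ u) :
    PieceOK V a u B d o A 2 := by
  intro y hy v₁ hv₁ hre
  have e : ((alf o A (vec 2 y) : ℝ) : ℂ) =
      ((2 * Real.pi * a + (o + B + A 2 * y) : ℝ) : ℂ) := by
    rw [alf_vec_2, hA0, hA1]; push_cast; ring
  rw [e, rot_period, ppf_vec_2] at hre ⊢
  rw [dpf_vec_2, crs_seam]
  set v : ℂ := exp (((o + B + A 2 * y : ℝ) : ℂ) * I) * v₁ with hv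
  set p : ℂ := u * ((Real.cos B : ℂ) + ((Real.sin B * (1 - 2 * y) : ℝ) : ℂ) * I) with hp
  have hvρ : ‖v‖ = ρ := by rw [hv, norm_rot, hVρ v₁ hv₁]
  have hsin : 0 < Real.sin B := Real.sin_pos_of_pos_of_lt_pi hB0 hBπ
  have hy2 : (1 - 2 * y) ^ 2 ≤ 1 := by nlinarith [hy.1, hy.2]
  have hnp : ‖(Real.cos B : ℂ) + ((Real.sin B * (1 - 2 * y) : ℝ) : ℂ) * I‖ ^ 2 =
      Real.cos B ^ 2 + Real.sin B ^ 2 * (1 - 2 * y) ^ 2 := by
    rw [Complex.sq_norm, Complex.normSq_apply]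
    simp only [Complex.add_re, Complex.add_im, Complex.mul_re, Complex.mul_im, Complex.ofReal_re,
      Complex.ofReal_im, Complex.I_re, Complex.I_im]
    ring
  have hcs := Real.sin_sq_add_cos_sq B
  have hnp1 : ‖(Real.cos B : ℂ) + ((Real.sin B * (1 - 2 * y) : ℝ) : ℂ) * I‖ ≤ 1 := by
    have h1 : ‖(Real.cos B : ℂ) + ((Real.sin B * (1 - 2 * y) : ℝ) : ℂ) * I‖ ^ 2 ≤ 1 ^ 2 := by
      rw [hnp]; nlinarith [sq_nonneg (Real.sin B)]
    exact (pow_le_pow_iff_left₀ (norm_nonneg _) zero_le_one two_ne_zero).mp h1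
  have hpn : ‖p‖ = u * ‖(Real.cos B : ℂ) + ((Real.sin B * (1 - 2 * y) : ℝ) : ℂ) * I‖ := by
    rw [hp, norm_mul, Complex.norm_real, Real.norm_eq_abs, abs_of_nonneg hu0]
  have hpu : ‖p‖ ≤ u := by
    rw [hpn]
    exact mul_le_of_le_one_right hu0 hnp1
  obtain ⟨i1, i2⟩ := inner_le hvρ (hpu.trans huρ)
  have t2 : 0 ≤ 2 * u * Real.sin B * (v - p).re := by positivity
  have t1 : 0 < A 2 * (‖v‖ ^ 2 - (v.re * p.re + v.im * p.im)) := by
    refine mul_pos hA2 (sub_pos.mpr (lt_of_le_of_ne i1 fun h => ?_))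
    have hvp := i2 h
    -- then `‖p‖ = ρ = u` and `y = 0` or `y = 1`
    have hpρ : ‖p‖ = ρ := by rw [← hvp, hvρ]
    have huρ' : u = ρ := le_antisymm huρ (by rw [← hpρ]; exact hpu)
    have hρ0 : ρ ≠ 0 := by
      intro h0
      have h1 : v₁ = 0 := norm_eq_zero.mp ((hVρ v₁ hv₁).trans h0)
      refine hV1 v₁ hv₁ ?_
      rw [h1, mul_zero, huρ', h0, Complex.ofReal_zero]
    have h1 : ‖(Real.cos B : ℂ) + ((Real.sin B * (1 - 2 * y) : ℝ) : ℂ) * I‖ = 1 := by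
      rw [hpρ, ← huρ'] at hpn
      have hu' : u ≠ 0 := huρ' ▸ hρ0
      field_simp at hpn
      linarith
    rw [h1] at hnp
    have h2 : Real.sin B ^ 2 * ((2 * y) * (2 - 2 * y)) = 0 := by nlinarith
    have h3 : (2 * y) * (2 - 2 * y) = 0 :=
      (mul_eq_zero.mp h2).resolve_left (pow_ne_zero 2 hsin.ne')
    rcases mul_eq_zero.mp h3 with h4 | h4
    · have hy0 : y = 0 := by linarith
      subst hy0
      refine hV1 v₁ hv₁ ?_
      have e5 : exp ((B : ℂ) * I) * (exp ((o : ℂ) * I) * v₁) = exp ((B : ℂ) * I) * u := by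
        rw [← rot_add]
        have e6 : B + o = o + B + A 2 * 0 := by ring
        rw [e6, ← hv, hvp, hp, exp_eq_cs B]
        push_cast
        ring
      exact mul_left_cancel₀ (Complex.exp_ne_zero _) e5
    · have hy1 : y = 1 := by linarith
      subst hy1
      refine hV2 v₁ hv₁ ?_
      have e5 : exp (((-B : ℝ) : ℂ) * I) * (exp (((o + 2 * B + A 2 : ℝ) : ℂ) * I) * v₁) =
          exp (((-B : ℝ) : ℂ) * I) * u := by
        rw [← rot_add]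
        have e6 : -B + (o + 2 * B + A 2) = o + B + A 2 * 1 := by ring
        rw [e6, ← hv, hvp, hp, exp_eq_cs (-B), Real.cos_neg, Real.sin_neg]
        push_cast
        ring
      exact mul_left_cancel₀ (Complex.exp_ne_zero _) e5
  linarith

/-- The seam with a resting polygon. -/
theorem pieceOK_2' (hu0 : 0 < u) (hB0 : 0 < B) (hBπ : B < Real.pi)
    (hA2 : A 2 = 0) (hA0 : A 0 = 2 * Real.pi * a) (hA1 : A 1 = B)
    (hV : ∀ v ∈ V, (exp (((o + B : ℝ) : ℂ) * I) * v).re ≠ u * Real.cos B) :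
    PieceOK V a u B d o A 2 := by
  intro y hy v₁ hv₁ hre
  have e : ((alf o A (vec 2 y) : ℝ) : ℂ) = ((2 * Real.pi * a + (o + B) : ℝ) : ℂ) := by
    rw [alf_vec_2, hA0, hA1, hA2]; push_cast; ring
  rw [e, rot_period, ppf_vec_2] at hre ⊢
  rw [dpf_vec_2, crs_seam, hA2, zero_mul, zero_add]
  have hsin : 0 < Real.sin B := Real.sin_pos_of_pos_of_lt_pi hB0 hBπ
  refine mul_pos (by positivity) (lt_of_le_of_ne hre fun h => hV v₁ hv₁ ?_)
  rw [Complex.sub_re] at h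
  have e1 : ((u : ℂ) * ((Real.cos B : ℂ) + ((Real.sin B * (1 - 2 * y) : ℝ) : ℂ) * I)).re =
      u * Real.cos B := by
    simp only [Complex.add_re, Complex.add_im, Complex.mul_re, Complex.mul_im, Complex.ofReal_re,
      Complex.ofReal_im, Complex.I_re, Complex.I_im]
    ring
  rw [e1] at h
  linarith

end

end Vale.Agent.P268.T.H155
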