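import Vale.Agent.P268.T.H155.Turn
import Vale.Agent.P268.T.H121.Radial
import Vale.Agent.P268.T.Polar

/-!
# P268, topological half, block B1G-C: turning loops give regular functions in the plane
-/

set_option linter.unusedSectionVars false

namespace Vale.Agent.P268.T.H155

open Set Filter Topology

variable {Θ : Type*} [TopologicalSpace Θ]

theorem crs_eq_inner (w z : ℂ) : crs w z = inner ℝ z (Complex.I * w) := by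
  rw [inner_complex, crs]
  simp only [Complex.mul_re, Complex.mul_im, Complex.I_re, Complex.I_im]
  ring

/-- Turning vectors are nonzero. -/
theorem TurnAt.ne_zero {s : Set Θ} {Γ : Θ → ℝ → ℂ} {w : ℂ} {t₀ : Θ} {x₀ : ℝ}
    (h : TurnAt s Γ w t₀ x₀) (hs : t₀ ∈ closure s) : w ≠ 0 := by
  rintro rfl
  obtain ⟨κ, hκ, ε, hε, hev⟩ := h
  have : (𝓝[s] t₀).NeBot := mem_closure_iff_nhdsWithin_neBot.mp hs
  obtain ⟨t, ht⟩ := hev.exists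
  have h1 := ht x₀ (x₀ + ε) (by linarith) (by linarith) (by linarith)
  simp only [crs, Complex.zero_re, Complex.zero_im, zero_mul, sub_zero] at h1
  nlinarith

/-- The function in logarithmic polar coordinates. -/
noncomputable def plr (e : ℝ) (σ p : ℝ → ℂ) (ξ ζ : ℂ) : ℂ :=
  ((Real.exp (e * ζ.re) : ℝ) : ℂ) * (σ (ζ.im / (2 * Real.pi)) * ξ) -
    ((Real.exp ζ.re : ℝ) : ℂ) * p (ζ.im / (2 * Real.pi))

/-- Local Lipschitz families of loops. -/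
def LipLoc (s : Set Θ) (σ : Θ → ℝ → ℂ) : Prop :=
  ∀ t₀ ∈ s, ∃ L : ℝ, ∀ᶠ t in 𝓝[s] t₀, ∀ x x', ‖σ t x' - σ t x‖ ≤ L * |x' - x|

/-- `e^{r} - 1` is small. -/
theorem exp_sub_one_le {r : ℝ} (hr : |r| ≤ 1) : |Real.exp r - 1| ≤ 2 * |r| := by
  have := Real.abs_exp_sub_one_sub_id_le hr
  have h1 : |Real.exp r - 1| ≤ |Real.exp r - 1 - r| + |r| := by
    calc |Real.exp r - 1| = |(Real.exp r - 1 - r) + r| := by ring_nf
      _ ≤ _ := abs_add_le _ _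
  have h2 : r ^ 2 ≤ |r| := by
    rw [← sq_abs]; nlinarith [abs_nonneg r]
  linarith

/-- The radial increment. -/
theorem radial_incr {e r dr ε : ℝ} {S q w₀ : ℂ}
    (h : ∀ y ∈ uIcc r (r + dr), ‖((e * Real.exp (e * y) : ℝ) : ℂ) * S -
      ((Real.exp y : ℝ) : ℂ) * q - w₀‖ ≤ ε) :
    ‖(((Real.exp (e * (r + dr)) : ℝ) : ℂ) * S - ((Real.exp (r + dr) : ℝ) : ℂ) * q) -
      (((Real.exp (e * r) : ℝ) : ℂ) * S - ((Real.exp r : ℝ) : ℂ) * q) - dr • w₀‖ ≤ ε * |dr| := by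
  set g : ℝ → ℂ := fun y => ((Real.exp (e * y) : ℝ) : ℂ) * S - ((Real.exp y : ℝ) : ℂ) * q - y • w₀
    with hg
  have hgd : ∀ y, HasDerivAt g (((e * Real.exp (e * y) : ℝ) : ℂ) * S -
      ((Real.exp y : ℝ) : ℂ) * q - w₀) y := by
    intro y
    have e1 : HasDerivAt (fun y : ℝ => ((Real.exp (e * y) : ℝ) : ℂ))
        ((e * Real.exp (e * y) : ℝ) : ℂ) y := by
      have : HasDerivAt (fun y : ℝ => Real.exp (e * y)) (e * Real.exp (e * y)) y := by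
        have h1 : HasDerivAt (fun y : ℝ => e * y) e y := by
          simpa using (hasDerivAt_id y).const_mul e
        simpa [mul_comm] using h1.exp
      exact this.ofReal_comp
    have e2 : HasDerivAt (fun y : ℝ => ((Real.exp y : ℝ) : ℂ)) ((Real.exp y : ℝ) : ℂ) y :=
      (Real.hasDerivAt_exp y).ofReal_comp
    have e3 : HasDerivAt (fun y : ℝ => y • w₀) w₀ y := by
      simpa using (hasDerivAt_id y).smul_const w₀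
    exact ((e1.mul_const _).sub (e2.mul_const _)).sub e3
  have hmv := (convex_uIcc r (r + dr)).norm_image_sub_le_of_norm_hasDerivWithin_le
    (f := g) (C := ε) (fun y _ => (hgd y).hasDerivWithinAt) h left_mem_uIcc right_mem_uIcc
  have e4 : g (r + dr) - g r =
      (((Real.exp (e * (r + dr)) : ℝ) : ℂ) * S - ((Real.exp (r + dr) : ℝ) : ℂ) * q) -
      (((Real.exp (e * r) : ℝ) : ℂ) * S - ((Real.exp r : ℝ) : ℂ) * q) - dr • w₀ := by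
    rw [hg]
    simp only [add_smul]
    ring
  rw [e4, Real.norm_eq_abs, add_sub_cancel_left] at hmv
  exact hmv

/-- The angular increment. -/
theorem angular_incr' {E₁ E₂ η C κ dx : ℝ} {a b w₀ : ℂ} (hη : 0 ≤ η) (hη1 : 2 * η ≤ 1)
    (hC : 0 ≤ C) (h1 : |E₁ - 1| ≤ 2 * η) (h2 : |E₂ - 1| ≤ 2 * η)
    (hab : ‖a‖ + ‖b‖ ≤ C * |dx|) (hκ : κ * dx ^ 2 ≤ dx * crs w₀ (a - b))
    (hκη : 8 * (‖w₀‖ * C) * η ≤ κ) :
    κ / 2 * dx ^ 2 ≤ dx * crs w₀ ((E₁ : ℂ) * a - (E₂ : ℂ) * b) ∧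
      ‖(E₁ : ℂ) * a - (E₂ : ℂ) * b‖ ≤ 4 * (C * |dx|) := by
  have hdx := abs_nonneg dx
  have hCdx : 0 ≤ C * |dx| := by positivity
  have hκ0 : 0 ≤ κ := le_trans (by positivity) hκη
  set Q₁ : ℂ := ((E₁ - 1 : ℝ) : ℂ) * a - ((E₂ - 1 : ℝ) : ℂ) * b with hQ₁
  have hQ : (E₁ : ℂ) * a - (E₂ : ℂ) * b = (a - b) + Q₁ := by rw [hQ₁]; push_cast; ring
  have hQ₁n : ‖Q₁‖ ≤ 2 * η * (C * |dx|) := by
    rw [hQ₁]
    refine (norm_sub_le _ _).trans ?_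
    rw [norm_mul, norm_mul, Complex.norm_real, Complex.norm_real, Real.norm_eq_abs,
      Real.norm_eq_abs]
    calc _ ≤ (2 * η) * ‖a‖ + (2 * η) * ‖b‖ :=
          add_le_add (mul_le_mul_of_nonneg_right h1 (norm_nonneg _))
            (mul_le_mul_of_nonneg_right h2 (norm_nonneg _))
      _ = (2 * η) * (‖a‖ + ‖b‖) := by ring
      _ ≤ _ := mul_le_mul_of_nonneg_left hab (by positivity)
  have hab' : ‖a - b‖ ≤ C * |dx| := (norm_sub_le _ _).trans hab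
  constructor
  · rw [hQ, crs_add, mul_add]
    have h3 : |dx * crs w₀ Q₁| ≤ κ / 4 * dx ^ 2 := by
      rw [abs_mul]
      calc |dx| * |crs w₀ Q₁| ≤ |dx| * (‖w₀‖ * (2 * η * (C * |dx|))) :=
            mul_le_mul_of_nonneg_left ((abs_crs_le _ _).trans
              (mul_le_mul_of_nonneg_left hQ₁n (norm_nonneg _))) hdx
        _ = 2 * (‖w₀‖ * C) * η * dx ^ 2 := by rw [← sq_abs dx]; ring
        _ ≤ κ / 4 * dx ^ 2 := mul_le_mul_of_nonneg_right (by linarith) (sq_nonneg _)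
    have h5 := (abs_le.mp h3).1
    have h6 := sq_nonneg dx
    nlinarith
  · rw [hQ]
    refine (norm_add_le _ _).trans ?_
    have h4 : 2 * η * (C * |dx|) ≤ 1 * (C * |dx|) := mul_le_mul_of_nonneg_right hη1 hCdx
    linarith

/-- Sum of the two Lipschitz increments. -/
theorem lip_sum {a b ξ : ℂ} {L₁ L₂ X d : ℝ} (hX : 0 ≤ X) (h1 : ‖a‖ ≤ L₁ * |d|)
    (h2 : ‖b‖ ≤ L₂ * |d|) (hξ : ‖ξ‖ ≤ X) : ‖a * ξ‖ + ‖b‖ ≤ (|L₁| + |L₂|) * (X + 1) * |d| := by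
  have hd := abs_nonneg d
  have e1 : ‖a * ξ‖ ≤ |L₁| * |d| * X := by
    rw [norm_mul]
    exact mul_le_mul (h1.trans (mul_le_mul_of_nonneg_right (le_abs_self _) hd)) hξ
      (norm_nonneg _) (by positivity)
  have e2 : ‖b‖ ≤ |L₂| * |d| := h2.trans (mul_le_mul_of_nonneg_right (le_abs_self _) hd)
  have e3 : 0 ≤ |L₁| * |d| + |L₂| * |d| * X := by positivity
  nlinarith

/-- The estimate for a fixed parameter. -/
theorem plr_mono {e : ℝ} (he0 : 0 ≤ e) (he1 : e ≤ 1) {σ p : ℝ → ℂ} {ξ w₀ : ℂ}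
    {x₀ L₁ L₂ X C κ μ ε η : ℝ} (hw0 : w₀ ≠ 0) (hμ0 : 0 < μ) (hX0 : 0 ≤ X)
    (hC : C = (|L₁| + |L₂|) * (X + 1)) (hMμ : 4 * (4 * C) ^ 2 * μ ≤ κ / 2)
    (hε1 : 8 * ε ≤ ‖w₀‖) (hε2 : 8 * ε ^ 2 ≤ κ / 2 * μ) (hε0 : 0 ≤ ε)
    (hη0 : 0 < η) (hη3 : η ≤ 1 / 4) (hη4 : 8 * (‖w₀‖ * C) * η ≤ κ)
    (hσ : ∀ x x', ‖σ x' - σ x‖ ≤ L₁ * |x' - x|) (hp : ∀ x x', ‖p x' - p x‖ ≤ L₂ * |x' - x|)
    (hξ : ‖ξ‖ ≤ X)
    (hturn : ∀ x x', x₀ - 4 * η ≤ x → x ≤ x' → x' ≤ x₀ + 4 * η →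
      κ * (x' - x) ≤ crs w₀ ((σ x' * ξ - p x') - (σ x * ξ - p x)))
    (hrad : ∀ y x, |y| < 4 * η → |x - x₀| < 4 * η →
      ‖((e * Real.exp (e * y) : ℝ) : ℂ) * (σ x * ξ) - ((Real.exp y : ℝ) : ℂ) * p x - w₀‖ ≤ ε)
    {A : ℂ →L[ℝ] ℂ} {ρL θL : ℂ →L[ℝ] ℝ}
    (hρ : ∀ c, ρL c = inner ℝ w₀ c / ‖w₀‖ ^ 2)
    (hθ : ∀ c, θL c = inner ℝ (Complex.I * w₀) c / ‖w₀‖ ^ 2)
    (hAre : ∀ c, (A c).re = ρL c) (hAim : ∀ c, (A c).im / (2 * Real.pi) = μ * θL c)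
    {ζ c : ℂ} (hζ1 : |ζ.re| < η) (hζ2 : |ζ.im / (2 * Real.pi) - x₀| < η)
    (hc1 : |(ζ + A c).re| < η) (hc2 : |(ζ + A c).im / (2 * Real.pi) - x₀| < η) :
    min (1 / 2) (κ / 2 * μ / (4 * ‖w₀‖ ^ 2)) * ‖c‖ ^ 2 ≤
      inner ℝ (plr e σ p ξ (ζ + A c) - plr e σ p ξ ζ) c ∧
    ‖plr e σ p ξ (ζ + A c) - plr e σ p ξ ζ‖ ≤
      ((‖w₀‖ + ε) * ‖ρL‖ + 4 * C * (μ * ‖θL‖)) * ‖c‖ := by
  have hC0 : 0 ≤ C := by rw [hC]; positivity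
  obtain ⟨r, hr⟩ : ∃ r, ζ.re = r := ⟨_, rfl⟩
  obtain ⟨x, hx⟩ : ∃ x, ζ.im / (2 * Real.pi) = x := ⟨_, rfl⟩
  obtain ⟨dr, hdr⟩ : ∃ dr, ρL c = dr := ⟨_, rfl⟩
  obtain ⟨dx, hdx⟩ : ∃ dx, μ * θL c = dx := ⟨_, rfl⟩
  have ere : (ζ + A c).re = r + dr := by rw [Complex.add_re, hAre, hr, hdr]
  have eim : (ζ + A c).im / (2 * Real.pi) = x + dx := by
    rw [Complex.add_im, add_div, hAim, hx, hdx]
  rw [ere] at hc1
  rw [eim] at hc2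
  rw [hr] at hζ1
  rw [hx] at hζ2
  rw [abs_lt] at hζ1 hζ2 hc1 hc2
  have hinc : plr e σ p ξ (ζ + A c) - plr e σ p ξ ζ =
      (((Real.exp (e * (r + dr)) : ℝ) : ℂ) * ((σ (x + dx) - σ x) * ξ) -
        ((Real.exp (r + dr) : ℝ) : ℂ) * (p (x + dx) - p x)) +
      ((((Real.exp (e * (r + dr)) : ℝ) : ℂ) * (σ x * ξ) -
        ((Real.exp (r + dr) : ℝ) : ℂ) * p x) -
      (((Real.exp (e * r) : ℝ) : ℂ) * (σ x * ξ) - ((Real.exp r : ℝ) : ℂ) * p x)) := by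
    rw [plr, plr, ere, eim, hr, hx]
    ring
  -- radial increment
  have hrad' := radial_incr (e := e) (r := r) (dr := dr) (ε := ε) (S := σ x * ξ)
    (q := p x) (w₀ := w₀) (fun y hy => by
      have hyδ : |y| < 4 * η := by
        rw [abs_lt]
        rcases le_total 0 dr with h | h
        · rw [uIcc_of_le (by linarith)] at hy
          constructor <;> linarith [hy.1, hy.2]
        · rw [uIcc_of_ge (by linarith)] at hy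
          constructor <;> linarith [hy.1, hy.2]
      exact hrad y x hyδ (by rw [abs_lt]; constructor <;> linarith [hζ2.1, hζ2.2]))
  -- angular increment
  have hr1η : |r + dr| ≤ η := by rw [abs_le]; exact ⟨hc1.1.le, hc1.2.le⟩
  have her : |e * (r + dr)| ≤ η := by
    rw [abs_mul, abs_of_nonneg he0]
    calc e * |r + dr| ≤ 1 * |r + dr| := mul_le_mul_of_nonneg_right he1 (abs_nonneg _)
      _ ≤ η := by linarith
  have hσd := hσ x (x + dx)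
  have hpd := hp x (x + dx)
  rw [add_sub_cancel_left] at hσd hpd
  have hab : ‖(σ (x + dx) - σ x) * ξ‖ + ‖p (x + dx) - p x‖ ≤ C * |dx| := by
    rw [hC]; exact lip_sum hX0 hσd hpd hξ
  have hκ' : κ * dx ^ 2 ≤
      dx * crs w₀ ((σ (x + dx) - σ x) * ξ - (p (x + dx) - p x)) := by
    rcases le_total 0 dx with h | h
    · have h4 := hturn x (x + dx) (by linarith) (by linarith) (by linarith)
      rw [add_sub_cancel_left] at h4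
      have e7 : σ (x + dx) * ξ - p (x + dx) - (σ x * ξ - p x) =
          (σ (x + dx) - σ x) * ξ - (p (x + dx) - p x) := by ring
      rw [e7] at h4
      have := mul_le_mul_of_nonneg_left h4 h
      calc κ * dx ^ 2 = dx * (κ * dx) := by ring
        _ ≤ _ := this
    · have h4 := hturn (x + dx) x (by linarith) (by linarith) (by linarith)
      have e6 : x - (x + dx) = -dx := by ring
      have e7 : σ x * ξ - p x - (σ (x + dx) * ξ - p (x + dx)) =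
          -((σ (x + dx) - σ x) * ξ - (p (x + dx) - p x)) := by ring
      rw [e6, e7, crs_neg] at h4
      have := mul_le_mul_of_nonneg_left h4 (neg_nonneg.mpr h)
      calc κ * dx ^ 2 = -dx * (κ * -dx) := by ring
        _ ≤ -dx * -crs w₀ ((σ (x + dx) - σ x) * ξ - (p (x + dx) - p x)) := this
        _ = _ := by ring
  obtain ⟨hang, hQn⟩ := angular_incr' (w₀ := w₀) hη0.le (by linarith) hC0
    ((exp_sub_one_le (her.trans (by linarith))).trans (mul_le_mul_of_nonneg_left her zero_le_two))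
    ((exp_sub_one_le (hr1η.trans (by linarith))).trans
      (mul_le_mul_of_nonneg_left hr1η zero_le_two)) hab hκ' hη4
  rw [hinc]
  rw [crs_eq_inner] at hang
  have hadx : |dx| = μ * |θL c| := by rw [← hdx, abs_mul, abs_of_pos hμ0]
  rw [hadx] at hQn
  subst hdr
  subst hdx
  have hQn' := hQn.trans (le_of_eq (show 4 * (C * (μ * |θL c|)) = (4 * C) * μ * |θL c| by ring))
  constructor
  · exact angular_incr hw0 hμ0 hMμ hε1 hε2 (hρ c) (hθ c) hrad' hQn' hang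
  · refine (norm_add_le _ _).trans ?_
    have h1 := (norm_le_norm_sub_add _ (ρL c • w₀)).trans (add_le_add hrad' le_rfl)
    rw [norm_smul, Real.norm_eq_abs] at h1
    have h2 : |ρL c| ≤ ‖ρL‖ * ‖c‖ := by
      have := ρL.le_opNorm c
      rwa [Real.norm_eq_abs] at this
    have h3 : |θL c| ≤ ‖θL‖ * ‖c‖ := by
      have := θL.le_opNorm c
      rwa [Real.norm_eq_abs] at this
    have h4 : (4 * C) * μ * |θL c| ≤ (4 * C) * μ * (‖θL‖ * ‖c‖) :=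
      mul_le_mul_of_nonneg_left h3 (by positivity)
    have h5 : (‖w₀‖ + ε) * |ρL c| ≤ (‖w₀‖ + ε) * (‖ρL‖ * ‖c‖) :=
      mul_le_mul_of_nonneg_left h2 (by positivity)
    have h6 := add_le_add (hQn'.trans h4) (h1.trans (le_of_eq
      (show ε * |ρL c| + |ρL c| * ‖w₀‖ = (‖w₀‖ + ε) * |ρL c| by ring)))
    refine (h6.trans (add_le_add le_rfl h5)).trans (le_of_eq ?_)
    ring

theorem tendsto_loop {s : Set Θ} {σ : Θ → ℝ → ℂ} {t₀ : Θ} (ht₀ : t₀ ∈ s)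
    (hσ : ContinuousOn (fun q : Θ × ℝ => σ q.1 q.2) (s ×ˢ univ)) (x₀ : ℝ) (ξ₀ : ℂ) :
    Tendsto (fun q : (Θ × ℂ) × (ℝ × ℝ) => σ q.1.1 q.2.2)
      (𝓝[s ×ˢ univ] (t₀, ξ₀) ×ˢ 𝓝 ((0 : ℝ), x₀)) (𝓝 (σ t₀ x₀)) := by
  have h1 : Tendsto (fun q : Θ × ℝ => σ q.1 q.2) (𝓝[s] t₀ ×ˢ 𝓝 x₀) (𝓝 (σ t₀ x₀)) := by
    have := hσ (t₀, x₀) ⟨ht₀, mem_univ _⟩
    rwa [ContinuousWithinAt, nhdsWithin_prod_eq, nhdsWithin_univ] at this
  have h2 : Tendsto (fun q : Θ × ℂ => q.1) (𝓝[s ×ˢ univ] (t₀, ξ₀)) (𝓝[s] t₀) := by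
    rw [nhdsWithin_prod_eq]
    exact tendsto_fst
  have h3 : Tendsto (fun q : ℝ × ℝ => q.2) (𝓝 ((0 : ℝ), x₀)) (𝓝 x₀) := by
    rw [nhds_prod_eq]
    exact tendsto_snd
  exact h1.comp (h2.prodMap h3)

theorem tendsto_rad {s : Set Θ} {σ p : Θ → ℝ → ℂ} (e : ℝ) {t₀ : Θ}
    (ht₀ : t₀ ∈ s)
    (hσ : ContinuousOn (fun q : Θ × ℝ => σ q.1 q.2) (s ×ˢ univ))
    (hp : ContinuousOn (fun q : Θ × ℝ => p q.1 q.2) (s ×ˢ univ)) (x₀ : ℝ) (ξ₀ w₀ : ℂ) :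
    Tendsto (fun q : (Θ × ℂ) × (ℝ × ℝ) =>
      ‖((e * Real.exp (e * q.2.1) : ℝ) : ℂ) * (σ q.1.1 q.2.2 * q.1.2) -
        ((Real.exp q.2.1 : ℝ) : ℂ) * p q.1.1 q.2.2 - w₀‖)
      (𝓝[s ×ˢ univ] (t₀, ξ₀) ×ˢ 𝓝 ((0 : ℝ), x₀))
      (𝓝 ‖((e * Real.exp (e * 0) : ℝ) : ℂ) * (σ t₀ x₀ * ξ₀) -
        ((Real.exp 0 : ℝ) : ℂ) * p t₀ x₀ - w₀‖) := by
  have h1 := tendsto_loop ht₀ hσ x₀ ξ₀
  have h2 := tendsto_loop ht₀ hp x₀ ξ₀
  have h3 : Tendsto (fun q : (Θ × ℂ) × (ℝ × ℝ) => q.1.2)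
      (𝓝[s ×ˢ univ] (t₀, ξ₀) ×ˢ 𝓝 ((0 : ℝ), x₀)) (𝓝 ξ₀) := by
    have : Tendsto (fun q : Θ × ℂ => q.2) (𝓝[s ×ˢ univ] (t₀, ξ₀)) (𝓝 ξ₀) :=
      (continuous_snd.tendsto (t₀, ξ₀)).mono_left nhdsWithin_le_nhds
    exact this.comp tendsto_fst
  have h4 : Tendsto (fun q : (Θ × ℂ) × (ℝ × ℝ) => q.2.1)
      (𝓝[s ×ˢ univ] (t₀, ξ₀) ×ˢ 𝓝 ((0 : ℝ), x₀)) (𝓝 0) := by
    have : Tendsto (fun q : ℝ × ℝ => q.1) (𝓝 ((0 : ℝ), x₀)) (𝓝 0) := continuous_fst.tendsto _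
    exact this.comp tendsto_snd
  have c3 : Continuous fun y : ℝ => ((e * Real.exp (e * y) : ℝ) : ℂ) := by fun_prop
  have c4 : Continuous fun y : ℝ => ((Real.exp y : ℝ) : ℂ) := by fun_prop
  exact ((((c3.tendsto 0).comp h4).mul (h1.mul h3)).sub (((c4.tendsto 0).comp h4).mul h2)
    |>.sub_const w₀).norm

theorem rad_close {s : Set Θ} {σ p : Θ → ℝ → ℂ} {e : ℝ} {t₀ : Θ}
    (ht₀ : t₀ ∈ s)
    (hσ : ContinuousOn (fun q : Θ × ℝ => σ q.1 q.2) (s ×ˢ univ))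
    (hp : ContinuousOn (fun q : Θ × ℝ => p q.1 q.2) (s ×ˢ univ)) {x₀ : ℝ} {ξ₀ w₀ : ℂ}
    (hw : w₀ = (e : ℂ) * (σ t₀ x₀ * ξ₀) - p t₀ x₀) {ε : ℝ} (hε : 0 < ε) :
    ∃ δ > 0, ∀ᶠ q : Θ × ℂ in 𝓝[s ×ˢ univ] (t₀, ξ₀), ∀ y x, |y| < δ → |x - x₀| < δ →
      ‖((e * Real.exp (e * y) : ℝ) : ℂ) * (σ q.1 x * q.2) -
        ((Real.exp y : ℝ) : ℂ) * p q.1 x - w₀‖ ≤ ε := by
  have h1 := tendsto_rad e ht₀ hσ hp x₀ ξ₀ w₀
  have e0 : ‖((e * Real.exp (e * (0 : ℝ)) : ℝ) : ℂ) * (σ t₀ x₀ * ξ₀) -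
        ((Real.exp (0 : ℝ) : ℝ) : ℂ) * p t₀ x₀ - w₀‖ = 0 := by
    rw [hw, mul_zero, Real.exp_zero, mul_one, Complex.ofReal_one, one_mul, sub_self, norm_zero]
  rw [e0] at h1
  have h2 := h1.eventually (gt_mem_nhds hε)
  rw [eventually_prod_iff] at h2
  obtain ⟨pq, hpq, px, hpx, hpqx⟩ := h2
  obtain ⟨δ₁, hδ₁, hball₁⟩ := Metric.eventually_nhds_iff_ball.mp hpx
  refine ⟨δ₁, hδ₁, ?_⟩
  filter_upwards [hpq] with q hq y x hy hx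
  refine (hpqx hq (hball₁ (y, x) ?_)).le
  rw [Metric.mem_ball, Prod.dist_eq, max_lt_iff, Real.dist_eq, Real.dist_eq, sub_zero]
  exact ⟨hy, hx⟩

theorem lip_close {s : Set Θ} {σ p : Θ → ℝ → ℂ} {t₀ : Θ} {L₁ L₂ : ℝ}
    (hL₁ : ∀ᶠ t in 𝓝[s] t₀, ∀ x x', ‖σ t x' - σ t x‖ ≤ L₁ * |x' - x|)
    (hL₂ : ∀ᶠ t in 𝓝[s] t₀, ∀ x x', ‖p t x' - p t x‖ ≤ L₂ * |x' - x|) (ξ₀ : ℂ) :
    ∀ᶠ q : Θ × ℂ in 𝓝[s ×ˢ univ] (t₀, ξ₀),
      (∀ x x', ‖σ q.1 x' - σ q.1 x‖ ≤ L₁ * |x' - x|) ∧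
      (∀ x x', ‖p q.1 x' - p q.1 x‖ ≤ L₂ * |x' - x|) ∧ ‖q.2‖ ≤ ‖ξ₀‖ + 1 := by
  rw [nhdsWithin_prod_eq, nhdsWithin_univ]
  have h1 : ∀ᶠ ξ : ℂ in 𝓝 ξ₀, ‖ξ‖ ≤ ‖ξ₀‖ + 1 := by
    have : Tendsto (fun ξ : ℂ => ‖ξ‖) (𝓝 ξ₀) (𝓝 ‖ξ₀‖) := continuous_norm.tendsto _
    filter_upwards [this.eventually (gt_mem_nhds (lt_add_one ‖ξ₀‖))] with ξ h
    exact h.le
  filter_upwards [prod_mem_prod (hL₁.and hL₂) h1] with q hq
  exact ⟨hq.1.1, hq.1.2, hq.2⟩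

theorem nhds_strip (x₀ : ℝ) {η : ℝ} (hη : 0 < η) :
    {ζ : ℂ | |ζ.re| < η ∧ |ζ.im / (2 * Real.pi) - x₀| < η} ∈
      𝓝 ((2 * Real.pi * x₀ : ℝ) * Complex.I : ℂ) := by
  have hπ := Real.pi_pos
  refine IsOpen.mem_nhds ?_ ?_
  · have i1 : Continuous fun ζ : ℂ => |ζ.re| := Complex.continuous_re.abs
    have i2 : Continuous fun ζ : ℂ => |ζ.im / (2 * Real.pi) - x₀| := by
      have := Complex.continuous_im
      fun_prop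
    exact (isOpen_lt i1 continuous_const).inter (isOpen_lt i2 continuous_const)
  · have e1 : (((2 * Real.pi * x₀ : ℝ) : ℂ) * Complex.I : ℂ).re = 0 := by
      rw [Complex.re_ofReal_mul]; simp
    have e2 : (((2 * Real.pi * x₀ : ℝ) : ℂ) * Complex.I : ℂ).im / (2 * Real.pi) - x₀ = 0 := by
      rw [Complex.im_ofReal_mul, Complex.I_im, mul_one, mul_div_cancel_left₀ _ (by positivity),
        sub_self]
    constructor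
    · rw [e1, abs_zero]; exact hη
    · rw [e2, abs_zero]; exact hη

theorem dir_re (ρL θL : ℂ →L[ℝ] ℝ) (μ : ℝ) (c : ℂ) :
    ((ρL.smulRight (1 : ℂ) + (2 * Real.pi * μ) • θL.smulRight Complex.I : ℂ →L[ℝ] ℂ) c).re =
      ρL c := by
  simp

theorem dir_im (ρL θL : ℂ →L[ℝ] ℝ) (μ : ℝ) (c : ℂ) :
    ((ρL.smulRight (1 : ℂ) + (2 * Real.pi * μ) • θL.smulRight Complex.I : ℂ →L[ℝ] ℂ) c).im /
      (2 * Real.pi) = μ * θL c := by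
  have hπ := Real.pi_pos
  simp
  field_simp

/-- The linear map used in the direction of regularity. -/
theorem exists_dir (w₀ : ℂ) (μ : ℝ) : ∃ (A : ℂ →L[ℝ] ℂ) (ρL θL : ℂ →L[ℝ] ℝ),
    (∀ c, ρL c = inner ℝ w₀ c / ‖w₀‖ ^ 2) ∧
    (∀ c, θL c = inner ℝ (Complex.I * w₀) c / ‖w₀‖ ^ 2) ∧
    (∀ c, (A c).re = ρL c) ∧ (∀ c, (A c).im / (2 * Real.pi) = μ * θL c) := by
  refine ⟨_, (‖w₀‖ ^ 2)⁻¹ • innerSL ℝ w₀, (‖w₀‖ ^ 2)⁻¹ • innerSL ℝ (Complex.I * w₀),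
      fun c => ?_, fun c => ?_, dir_re _ _ μ, dir_im _ _ μ⟩
  · simp only [smul_apply, innerSL_apply_apply, smul_eq_mul]
    rw [inv_mul_eq_div]
  · simp only [smul_apply, innerSL_apply_apply, smul_eq_mul]
    rw [inv_mul_eq_div]

/-- **Turning loops give regular functions** in logarithmic polar coordinates. -/
theorem regAt_plr {s : Set Θ} {σ p : Θ → ℝ → ℂ} {e : ℝ} (he0 : 0 ≤ e) (he1 : e ≤ 1) {t₀ : Θ}
    (ht₀ : t₀ ∈ s)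
    (hσ : ContinuousOn (fun q : Θ × ℝ => σ q.1 q.2) (s ×ˢ univ))
    (hp : ContinuousOn (fun q : Θ × ℝ => p q.1 q.2) (s ×ˢ univ))
    (hσL : LipLoc s σ) (hpL : LipLoc s p) {x₀ : ℝ} {ξ₀ w₀ : ℂ}
    (hw : w₀ = (e : ℂ) * (σ t₀ x₀ * ξ₀) - p t₀ x₀)
    (hturn : TurnAt (s ×ˢ univ) (fun (q : Θ × ℂ) x => σ q.1 x * q.2 - p q.1 x) w₀ (t₀, ξ₀) x₀) :
    RegAt (s ×ˢ univ) (fun (q : Θ × ℂ) ζ => plr e (σ q.1) (p q.1) q.2 ζ) (t₀, ξ₀)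
      ((2 * Real.pi * x₀ : ℝ) * Complex.I : ℂ) := by
  have hcl : ((t₀, ξ₀) : Θ × ℂ) ∈ closure (s ×ˢ (univ : Set ℂ)) := subset_closure ⟨ht₀, mem_univ _⟩
  have hw0 : w₀ ≠ 0 := hturn.ne_zero hcl
  obtain ⟨κ, hκ, ε₀, hε₀, hev₀⟩ := hturn
  obtain ⟨L₁, hL₁⟩ := hσL t₀ ht₀
  obtain ⟨L₂, hL₂⟩ := hpL t₀ ht₀
  -- constants
  have hn0 : 0 < ‖w₀‖ := norm_pos_iff.mpr hw0
  obtain ⟨C, hC⟩ : ∃ C, C = (|L₁| + |L₂|) * ((‖ξ₀‖ + 1) + 1) := ⟨_, rfl⟩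
  have hC0 : 0 ≤ C := by rw [hC]; positivity
  obtain ⟨μ, hμ⟩ : ∃ μ, μ = (κ / 2) / (4 * (4 * C) ^ 2 + 1) := ⟨_, rfl⟩
  have hμ0 : 0 < μ := by rw [hμ]; positivity
  have hMμ : 4 * (4 * C) ^ 2 * μ ≤ κ / 2 := by
    rw [hμ, mul_div_assoc', div_le_iff₀ (by positivity)]
    nlinarith
  obtain ⟨ε, hε⟩ : ∃ ε, ε = min (‖w₀‖ / 8) (Real.sqrt (κ / 2 * μ / 8)) := ⟨_, rfl⟩
  have hεpos : 0 < ε := by
    rw [hε]; exact lt_min (by positivity) (Real.sqrt_pos.mpr (by positivity))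
  have hε1 : 8 * ε ≤ ‖w₀‖ := by
    have := min_le_left (‖w₀‖ / 8) (Real.sqrt (κ / 2 * μ / 8))
    rw [← hε] at this
    linarith
  have hε2 : 8 * ε ^ 2 ≤ κ / 2 * μ := by
    have h1 := min_le_right (‖w₀‖ / 8) (Real.sqrt (κ / 2 * μ / 8))
    rw [← hε] at h1
    have h2 : ε ^ 2 ≤ (Real.sqrt (κ / 2 * μ / 8)) ^ 2 := pow_le_pow_left₀ hεpos.le h1 2
    rw [Real.sq_sqrt (by positivity)] at h2
    linarith
  obtain ⟨δ₁, hδ₁, hrad⟩ := rad_close ht₀ hσ hp hw hεpos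
  -- radii
  obtain ⟨η, hη⟩ : ∃ η, η = min (min (min (δ₁ / 4) (ε₀ / 4)) (1 / 4))
    (κ / (8 * (‖w₀‖ * C + 1))) := ⟨_, rfl⟩
  have hη0 : 0 < η := by rw [hη]; positivity
  have hη1 : η ≤ δ₁ / 4 := by
    rw [hη]; exact (min_le_left _ _).trans ((min_le_left _ _).trans (min_le_left _ _))
  have hη2 : η ≤ ε₀ / 4 := by
    rw [hη]; exact (min_le_left _ _).trans ((min_le_left _ _).trans (min_le_right _ _))
  have hη3 : η ≤ 1 / 4 := by rw [hη]; exact (min_le_left _ _).trans (min_le_right _ _)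
  have hη4 : 8 * (‖w₀‖ * C) * η ≤ κ := by
    have h1 : η ≤ κ / (8 * (‖w₀‖ * C + 1)) := by rw [hη]; exact min_le_right _ _
    rw [le_div_iff₀ (by positivity)] at h1
    nlinarith
  obtain ⟨A, ρL, θL, hρ, hθ, hAre, hAim⟩ := exists_dir w₀ μ
  refine RegAt.of_monotone (κ := min (1 / 2) (κ / 2 * μ / (4 * ‖w₀‖ ^ 2)))
    (Λ := (‖w₀‖ + ε) * ‖ρL‖ + 4 * C * (μ * ‖θL‖)) (lt_min (by norm_num) (by positivity)) A
    ⟨_, nhds_strip x₀ hη0, ?_⟩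
  filter_upwards [hev₀, lip_close hL₁ hL₂ ξ₀, hrad] with q hq hqL hqr ζ hζ c hc
  exact plr_mono he0 he1 (x₀ := x₀) (L₁ := L₁) (L₂ := L₂) (X := ‖ξ₀‖ + 1) (C := C) (η := η)
    hw0 hμ0 (by positivity) hC hMμ hε1 hε2 hεpos.le hη0 hη3 hη4 hqL.1 hqL.2.1 hqL.2.2
    (fun x x' h1 h2 h3 => hq x x' (by linarith) h2 (by linarith))
    (fun y x h1 h2 => hqr y x (by linarith) (by linarith)) hρ hθ hAre hAim hζ.1 hζ.2 hc.1 hc.2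

end Vale.Agent.P268.T.H155
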