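import Vale.Agent.P268.T.Mono

/-!
# P268, topological half, block B1G-C: turning curves

`TurnAt s Γ w t₀ x₀`: near `(t₀, x₀)` the curves `Γ t` move to the left of the vector `w`
(increments, uniformly in the parameter, corners allowed).
-/

set_option linter.unusedSectionVars false

namespace Vale.Agent.P268.T.H155

open Set Filter Topology

/-- Cross product `Im (conj w * z)`. -/
def crs (w z : ℂ) : ℝ := w.re * z.im - w.im * z.re

theorem crs_add (w z z' : ℂ) : crs w (z + z') = crs w z + crs w z' := by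
  simp only [crs, Complex.add_re, Complex.add_im]; ring

theorem crs_sub (w z z' : ℂ) : crs w (z - z') = crs w z - crs w z' := by
  simp only [crs, Complex.sub_re, Complex.sub_im]; ring

theorem crs_neg (w z : ℂ) : crs w (-z) = -crs w z := by
  simp only [crs, Complex.neg_re, Complex.neg_im]; ring

theorem crs_smul (w z : ℂ) (r : ℝ) : crs w ((r : ℂ) * z) = r * crs w z := by
  simp only [crs, Complex.mul_re, Complex.mul_im, Complex.ofReal_re, Complex.ofReal_im]; ring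

theorem crs_I_mul (w z : ℂ) : crs w (Complex.I * z) = w.re * z.re + w.im * z.im := by
  simp only [crs, Complex.mul_re, Complex.mul_im, Complex.I_re, Complex.I_im]; ring

theorem crs_I (w : ℂ) : crs w Complex.I = w.re := by
  simp [crs]

theorem continuous_crs (w : ℂ) : Continuous (crs w) := by
  unfold crs
  fun_prop

/-- `crs w` as a continuous linear map. -/
noncomputable def crsL (w : ℂ) : ℂ →L[ℝ] ℝ := w.re • Complex.imCLM - w.im • Complex.reCLM

theorem crsL_apply (w z : ℂ) : crsL w z = crs w z := by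
  simp [crsL, crs]

theorem abs_crs_le (w z : ℂ) : |crs w z| ≤ ‖w‖ * ‖z‖ := by
  have h1 : crs w z = ((starRingEnd ℂ) w * z).im := by
    simp only [crs, Complex.mul_im, Complex.conj_re, Complex.conj_im]; ring
  rw [h1]
  refine (Complex.abs_im_le_norm _).trans ?_
  rw [norm_mul, RCLike.norm_conj]

variable {Θ : Type*} [TopologicalSpace Θ]

/-- Turning on the interval `[x₀ - l ε, x₀ + r ε]`. -/
def TurnRL (l r : ℝ) (s : Set Θ) (Γ : Θ → ℝ → ℂ) (w : ℂ) (t₀ : Θ) (x₀ : ℝ) : Prop :=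
  ∃ κ > 0, ∃ ε > 0, ∀ᶠ t in 𝓝[s] t₀, ∀ x x', x₀ - l * ε ≤ x → x ≤ x' → x' ≤ x₀ + r * ε →
    κ * (x' - x) ≤ crs w (Γ t x' - Γ t x)

/-- Turning near `x₀`. -/
def TurnAt (s : Set Θ) (Γ : Θ → ℝ → ℂ) (w : ℂ) (t₀ : Θ) (x₀ : ℝ) : Prop :=
  TurnRL 1 1 s Γ w t₀ x₀

/-- Turning to the right of `x₀`. -/
def TurnR (s : Set Θ) (Γ : Θ → ℝ → ℂ) (w : ℂ) (t₀ : Θ) (x₀ : ℝ) : Prop :=
  TurnRL 0 1 s Γ w t₀ x₀

/-- Turning to the left of `x₀`. -/
def TurnL (s : Set Θ) (Γ : Θ → ℝ → ℂ) (w : ℂ) (t₀ : Θ) (x₀ : ℝ) : Prop :=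
  TurnRL 1 0 s Γ w t₀ x₀

variable {s : Set Θ} {Γ Γ₁ : Θ → ℝ → ℂ} {w : ℂ} {t₀ : Θ} {x₀ : ℝ}

theorem TurnAt.right (h : TurnAt s Γ w t₀ x₀) : TurnR s Γ w t₀ x₀ := by
  obtain ⟨κ, hκ, ε, hε, hev⟩ := h
  refine ⟨κ, hκ, ε, hε, ?_⟩
  filter_upwards [hev] with t ht x x' h1 h2 h3
  exact ht x x' (by linarith) h2 h3

theorem TurnAt.left (h : TurnAt s Γ w t₀ x₀) : TurnL s Γ w t₀ x₀ := by
  obtain ⟨κ, hκ, ε, hε, hev⟩ := h
  refine ⟨κ, hκ, ε, hε, ?_⟩
  filter_upwards [hev] with t ht x x' h1 h2 h3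
  exact ht x x' h1 h2 (by linarith)

theorem TurnRL.shrink {l r : ℝ} (hl : 0 ≤ l) (hr : 0 ≤ r) (h : TurnRL l r s Γ w t₀ x₀)
    {δ : ℝ} (hδ : 0 < δ) :
    ∃ κ > 0, ∃ ε > 0, ε ≤ δ ∧ ∀ᶠ t in 𝓝[s] t₀, ∀ x x', x₀ - l * ε ≤ x → x ≤ x' →
      x' ≤ x₀ + r * ε → κ * (x' - x) ≤ crs w (Γ t x' - Γ t x) := by
  obtain ⟨κ, hκ, ε, hε, hev⟩ := h
  refine ⟨κ, hκ, min ε δ, lt_min hε hδ, min_le_right _ _, ?_⟩
  have h1 : l * min ε δ ≤ l * ε := mul_le_mul_of_nonneg_left (min_le_left _ _) hl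
  have h2 : r * min ε δ ≤ r * ε := mul_le_mul_of_nonneg_left (min_le_left _ _) hr
  filter_upwards [hev] with t ht x x' a b c
  exact ht x x' (by linarith) b (by linarith)

/-- Turning on both sides is turning. -/
theorem TurnAt.of_sides (hL : TurnL s Γ w t₀ x₀) (hR : TurnR s Γ w t₀ x₀) :
    TurnAt s Γ w t₀ x₀ := by
  obtain ⟨κ, hκ, ε, hε, hev⟩ := hL
  obtain ⟨κ', hκ', ε', hε', hev'⟩ := hR
  refine ⟨min κ κ', lt_min hκ hκ', min ε ε', lt_min hε hε', ?_⟩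
  have m1 := min_le_left κ κ'
  have m2 := min_le_right κ κ'
  have m3 := min_le_left ε ε'
  have m4 := min_le_right ε ε'
  filter_upwards [hev, hev'] with t ht ht' x x' h1 h2 h3
  rcases le_total x' x₀ with hx' | hx'
  · refine le_trans ?_ (ht x x' (by linarith) h2 (by linarith))
    exact mul_le_mul_of_nonneg_right m1 (by linarith)
  · rcases le_total x₀ x with hx | hx
    · refine le_trans ?_ (ht' x x' (by linarith) h2 (by linarith))
      exact mul_le_mul_of_nonneg_right m2 (by linarith)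
    · have a1 := ht x x₀ (by linarith) hx (by linarith)
      have a2 := ht' x₀ x' (by linarith) hx' (by linarith)
      have e : Γ t x' - Γ t x = (Γ t x₀ - Γ t x) + (Γ t x' - Γ t x₀) := by ring
      rw [e, crs_add]
      have b1 : min κ κ' * (x₀ - x) ≤ κ * (x₀ - x) :=
        mul_le_mul_of_nonneg_right m1 (by linarith)
      have b2 : min κ κ' * (x' - x₀) ≤ κ' * (x' - x₀) :=
        mul_le_mul_of_nonneg_right m2 (by linarith)
      nlinarith

/-- Only the values near the interval matter. -/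
theorem TurnRL.congr {l r : ℝ} (hl : 0 ≤ l) (hr : 0 ≤ r) (h : TurnRL l r s Γ w t₀ x₀) {δ : ℝ}
    (hδ : 0 < δ)
    (he : ∀ t ∈ s, ∀ x, x₀ - l * δ ≤ x → x ≤ x₀ + r * δ → Γ t x = Γ₁ t x) :
    TurnRL l r s Γ₁ w t₀ x₀ := by
  obtain ⟨κ, hκ, ε, hε, hεδ, hev⟩ := h.shrink hl hr hδ
  refine ⟨κ, hκ, ε, hε, ?_⟩
  have h1 : l * ε ≤ l * δ := mul_le_mul_of_nonneg_left hεδ hl
  have h2 : r * ε ≤ r * δ := mul_le_mul_of_nonneg_left hεδ hr
  filter_upwards [hev, eventually_mem_nhdsWithin] with t ht hts x x' a b c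
  rw [← he t hts x (by linarith) (by linarith), ← he t hts x' (by linarith) (by linarith)]
  exact ht x x' a b c

theorem TurnR.congr (h : TurnR s Γ w t₀ x₀) {b : ℝ} (hb : x₀ < b)
    (he : ∀ t ∈ s, ∀ x, x₀ ≤ x → x ≤ b → Γ t x = Γ₁ t x) : TurnR s Γ₁ w t₀ x₀ :=
  TurnRL.congr le_rfl zero_le_one h (sub_pos.mpr hb) fun t ht x h1 h2 =>
    he t ht x (by linarith) (by linarith)

theorem TurnL.congr (h : TurnL s Γ w t₀ x₀) {b : ℝ} (hb : b < x₀)
    (he : ∀ t ∈ s, ∀ x, b ≤ x → x ≤ x₀ → Γ t x = Γ₁ t x) : TurnL s Γ₁ w t₀ x₀ :=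
  TurnRL.congr zero_le_one le_rfl h (sub_pos.mpr hb) fun t ht x h1 h2 =>
    he t ht x (by linarith) (by linarith)

/-- Turning from a positive derivative, with a Lipschitz perturbation. -/
theorem TurnRL.of_deriv {l r : ℝ} (hl : 0 ≤ l) (hr : 0 ≤ r) {Γ' : Θ → ℝ → ℂ}
    {Δ : Θ → ℝ → ℂ} {L : ℝ} {δ : ℝ} (hδ : 0 < δ)
    (hd : ∀ t ∈ s, ∀ x, HasDerivAt (Γ t) (Γ' t x) x)
    (hc : ContinuousWithinAt (fun q : Θ × ℝ => Γ' q.1 q.2) (s ×ˢ univ) (t₀, x₀))
    (hΔ : ∀ᶠ t in 𝓝[s] t₀, ∀ x x', x₀ - l * δ ≤ x → x ≤ x' → x' ≤ x₀ + r * δ →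
      ‖Δ t x' - Δ t x‖ ≤ L * (x' - x))
    (hpos : ‖w‖ * L < crs w (Γ' t₀ x₀)) :
    TurnRL l r s (fun t x => Γ t x + Δ t x) w t₀ x₀ := by
  set D := crs w (Γ' t₀ x₀) with hD
  set κ := (D - ‖w‖ * L) / 2 with hκ
  have hκ0 : 0 < κ := by rw [hκ]; linarith
  have h1 : ContinuousWithinAt (fun q : Θ × ℝ => crs w (Γ' q.1 q.2)) (s ×ˢ univ) (t₀, x₀) :=
    (continuous_crs w).continuousAt.comp_continuousWithinAt hc
  have h2 : ∀ᶠ q : Θ × ℝ in 𝓝[s ×ˢ univ] (t₀, x₀), D - κ < crs w (Γ' q.1 q.2) :=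
    h1.eventually (lt_mem_nhds (by show D - κ < D; linarith))
  rw [nhdsWithin_prod_eq, nhdsWithin_univ, eventually_prod_iff] at h2
  obtain ⟨pa, ha, pb, hb, hab⟩ := h2
  obtain ⟨ε, hε, hεb⟩ := Metric.eventually_nhds_iff_ball.mp hb
  set M : ℝ := l + r + 1 with hM
  have hM0 : 0 < M := by positivity
  set ε' : ℝ := min (ε / (2 * M)) δ with hε'
  have hε'0 : 0 < ε' := lt_min (by positivity) hδ
  have hε'δ : ε' ≤ δ := min_le_right _ _
  have hMε : M * ε' < ε := by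
    have h3 : ε' ≤ ε / (2 * M) := min_le_left _ _
    calc M * ε' ≤ M * (ε / (2 * M)) := mul_le_mul_of_nonneg_left h3 hM0.le
      _ = ε / 2 := by field_simp
      _ < ε := by linarith
  have hlε : l * ε' < ε := lt_of_le_of_lt (mul_le_mul_of_nonneg_right (by linarith) hε'0.le) hMε
  have hrε : r * ε' < ε := lt_of_le_of_lt (mul_le_mul_of_nonneg_right (by linarith) hε'0.le) hMε
  refine ⟨κ, hκ0, ε', hε'0, ?_⟩
  filter_upwards [ha, hΔ, eventually_mem_nhdsWithin] with t ht hΔt hts x x' g1 g2 g3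
  have hin : ∀ y ∈ Icc x x', D - κ < crs w (Γ' t y) := by
    intro y hy
    refine hab ht (hεb y ?_)
    rw [Metric.mem_ball, Real.dist_eq, abs_lt]
    constructor <;> linarith [hy.1, hy.2]
  have hder : ∀ y, HasDerivAt (fun y => crs w (Γ t y)) (crs w (Γ' t y)) y := by
    intro y
    have h3 := (crsL w).hasFDerivAt.comp_hasDerivAt y (hd t hts y)
    simpa [crsL_apply, Function.comp_def] using h3
  have h3 : (D - κ) * (x' - x) ≤ crs w (Γ t x') - crs w (Γ t x) := by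
    refine (convex_Icc x x').mul_sub_le_image_sub_of_le_deriv
      (fun y _ => (hder y).continuousAt.continuousWithinAt)
      (fun y _ => (hder y).differentiableAt.differentiableWithinAt)
      (fun y hy => ?_) x (left_mem_Icc.mpr g2) x' (right_mem_Icc.mpr g2) g2
    rw [interior_Icc] at hy
    rw [(hder y).deriv]
    exact (hin y (Ioo_subset_Icc_self hy)).le
  have h4 : |crs w (Δ t x' - Δ t x)| ≤ ‖w‖ * (L * (x' - x)) := by
    refine (abs_crs_le _ _).trans (mul_le_mul_of_nonneg_left ?_ (norm_nonneg _))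
    refine hΔt x x' ?_ g2 ?_
    · have : l * ε' ≤ l * δ := mul_le_mul_of_nonneg_left hε'δ hl
      linarith
    · have : r * ε' ≤ r * δ := mul_le_mul_of_nonneg_left hε'δ hr
      linarith
  have e : Γ t x' + Δ t x' - (Γ t x + Δ t x) = (Γ t x' - Γ t x) + (Δ t x' - Δ t x) := by ring
  rw [e, crs_add, crs_sub]
  have h5 := (abs_le.mp h4).1
  have h6 : κ * (x' - x) = (D - κ) * (x' - x) - ‖w‖ * (L * (x' - x)) := by
    rw [hκ]; ring
  linarith

/-- Turning from a positive derivative. -/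
theorem TurnAt.of_deriv {Γ' : Θ → ℝ → ℂ}
    (hd : ∀ t ∈ s, ∀ x, HasDerivAt (Γ t) (Γ' t x) x)
    (hc : ContinuousWithinAt (fun q : Θ × ℝ => Γ' q.1 q.2) (s ×ˢ univ) (t₀, x₀))
    (hpos : 0 < crs w (Γ' t₀ x₀)) : TurnAt s Γ w t₀ x₀ := by
  have h := TurnRL.of_deriv (l := 1) (r := 1) (Δ := fun _ _ => 0) (L := 0) zero_le_one zero_le_one
    one_pos hd hc (Eventually.of_forall fun t x x' _ h _ => by simp) (by simpa using hpos)
  have h' : TurnRL 1 1 s (fun t x => Γ t x) w t₀ x₀ := by simpa using h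
  exact h'

/-- Periodic extension. -/
noncomputable def per {α : Type*} (f : ℝ → α) (x : ℝ) : α := f (Int.fract x)

theorem per_add_one {α : Type*} (f : ℝ → α) (x : ℝ) : per f (x + 1) = per f x := by
  rw [per, per, Int.fract_add_one]

theorem per_eq {α : Type*} (f : ℝ → α) {x : ℝ} (h0 : 0 ≤ x) (h1 : x < 1) : per f x = f x := by
  rw [per, Int.fract_eq_self.mpr ⟨h0, h1⟩]

theorem per_eq' {α : Type*} {f : ℝ → α} (hf : f 0 = f 1) {x : ℝ} (h0 : 0 ≤ x) (h1 : x ≤ 1) :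
    per f x = f x := by
  rcases h1.lt_or_eq with h | rfl
  · exact per_eq f h0 h
  · rw [per, Int.fract_one, hf]

theorem per_add_int {α : Type*} (f : ℝ → α) (x : ℝ) (n : ℤ) : per f (x + n) = per f x := by
  rw [per, per, Int.fract_add_intCast]

theorem continuousOn_per {s : Set Θ} {f : Θ → ℝ → ℂ}
    (hf : ContinuousOn (fun q : Θ × ℝ => f q.1 q.2) (s ×ˢ Icc 0 1))
    (h01 : ∀ t ∈ s, f t 0 = f t 1) :
    ContinuousOn (fun q : Θ × ℝ => per (f q.1) q.2) (s ×ˢ univ) := by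
  rw [continuousOn_iff_continuous_domRestrict]
  have h2 : ContinuousOn (Function.uncurry fun (t : s) (x : ℝ) => f t x)
      (univ ×ˢ Icc (0 : ℝ) 1) := by
    have : ContinuousOn (fun q : s × ℝ => ((q.1 : Θ), q.2)) (univ ×ˢ Icc (0 : ℝ) 1) :=
      ((continuous_subtype_val.comp continuous_fst).prodMk continuous_snd).continuousOn
    exact hf.comp this (fun q hq => ⟨q.1.2, hq.2⟩)
  have h3 := h2.comp_fract' (fun t : s => h01 t t.2)
  exact h3.comp ((Continuous.subtype_mk (continuous_fst.comp continuous_subtype_val)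
      (fun q => q.2.1)).prodMk (continuous_snd.comp continuous_subtype_val))

variable {s : Set Θ} {Γ : Θ → ℝ → ℂ} {w : ℂ} {t₀ : Θ} {x₀ : ℝ}

theorem TurnR.per (h : TurnR s Γ w t₀ (Int.fract x₀)) :
    TurnR s (fun t => per (Γ t)) w t₀ x₀ := by
  obtain ⟨κ, hκ, ε, hε, hεδ, hev⟩ := TurnRL.shrink (l := 0) (r := 1) le_rfl zero_le_one h
    (δ := (1 - Int.fract x₀) / 2) (by have := Int.fract_lt_one x₀; linarith)
  have hf1 := Int.fract_lt_one x₀
  have hf0 := Int.fract_nonneg x₀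
  have hx₀ : x₀ = Int.fract x₀ + ⌊x₀⌋ := (Int.fract_add_floor x₀).symm
  refine ⟨κ, hκ, ε, hε, ?_⟩
  filter_upwards [hev] with t ht x x' h1 h2 h3
  have e : ∀ y, x₀ ≤ y → y ≤ x₀ + ε → H155.per (Γ t) y = Γ t (y - ⌊x₀⌋) := by
    intro y hy1 hy2
    have : y = (y - ⌊x₀⌋) + (⌊x₀⌋ : ℤ) := by ring
    rw [this, per_add_int, per_eq _ (by linarith) (by linarith)]
    congr 1
    ring
  rw [e x (by linarith) (by linarith), e x' (by linarith) (by linarith)]
  have := ht (x - ⌊x₀⌋) (x' - ⌊x₀⌋) (by linarith) (by linarith) (by linarith)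
  have e2 : x' - ⌊x₀⌋ - (x - ⌊x₀⌋) = x' - x := by ring
  rw [e2] at this
  exact this

/-- Left turning of a periodic extension: at a point `y ∈ (0, 1]` congruent to `x₀`. -/
theorem TurnL.per (hp : ∀ t ∈ s, Γ t 0 = Γ t 1) {y : ℝ} (hy0 : 0 < y) (hy1 : y ≤ 1) {n : ℤ}
    (hx : x₀ = y + n) (h : TurnL s Γ w t₀ y) : TurnL s (fun t => per (Γ t)) w t₀ x₀ := by
  obtain ⟨κ, hκ, ε, hε, hεδ, hev⟩ := TurnRL.shrink (l := 1) (r := 0) zero_le_one le_rfl h
    (δ := y) hy0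
  refine ⟨κ, hκ, ε, hε, ?_⟩
  filter_upwards [hev, eventually_mem_nhdsWithin] with t ht hts x x' h1 h2 h3
  have e : ∀ z, x₀ - ε ≤ z → z ≤ x₀ → H155.per (Γ t) z = Γ t (z - n) := by
    intro z hz1 hz2
    have : z = (z - n) + (n : ℤ) := by ring
    rw [this, per_add_int, per_eq' (hp t hts) (by linarith) (by linarith)]
    congr 1
    ring
  rw [e x (by linarith) (by linarith), e x' (by linarith) (by linarith)]
  have := ht (x - n) (x' - n) (by linarith) (by linarith) (by linarith)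
  have e2 : x' - n - (x - n) = x' - x := by ring
  rw [e2] at this
  exact this

/-- Turning of a periodic extension from turning on the two sides. -/
theorem TurnAt.per (hp : ∀ t ∈ s, Γ t 0 = Γ t 1)
    (hR : TurnR s Γ w t₀ (Int.fract x₀))
    (hL : Int.fract x₀ ≠ 0 → TurnL s Γ w t₀ (Int.fract x₀))
    (hL1 : Int.fract x₀ = 0 → TurnL s Γ w t₀ 1) :
    TurnAt s (fun t => per (Γ t)) w t₀ x₀ := by
  refine TurnAt.of_sides ?_ hR.per
  by_cases h : Int.fract x₀ = 0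
  · refine TurnL.per hp one_pos le_rfl (n := ⌊x₀⌋ - 1) ?_ (hL1 h)
    have := Int.fract_add_floor x₀
    rw [h] at this
    push_cast
    linarith
  · exact TurnL.per hp (lt_of_le_of_ne (Int.fract_nonneg x₀) (Ne.symm h)) (Int.fract_lt_one x₀).le
      (n := ⌊x₀⌋) (Int.fract_add_floor x₀).symm (hL h)

end Vale.Agent.P268.T.H155
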